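import Mathlib

/-!
# Injective holomorphic maps: nonvanishing derivative, holomorphic inverse.
-/

set_option autoImplicit false

open Complex Filter Topology Set Metric

namespace Crest.Agent.CrouzeixPoisson

/-- An injective holomorphic function on an open set has nonvanishing derivative. -/
lemma deriv_ne_zero_of_injOn {f : ℂ → ℂ} {U : Set ℂ} (hU : IsOpen U)
    (hf : DifferentiableOn ℂ f U) (hinj : InjOn f U) {z : ℂ} (hz : z ∈ U) : deriv f z ≠ 0 := by
  classical
  have hfa : AnalyticOnNhd ℂ f U := hf.analyticOnNhd hU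
  have hda : AnalyticAt ℂ (deriv f) z := (hfa z hz).deriv
  -- dichotomy for the derivative at `z`
  rcases hda.eventually_eq_zero_or_eventually_ne_zero with h0 | hne
  · -- locally constant: contradiction with injectivity
    exfalso
    obtain ⟨ε, hε, hball⟩ := Metric.eventually_nhds_iff_ball.1 (h0.and (hU.mem_nhds hz))
    have hsub : ball z ε ⊆ U := fun w hw => (hball w hw).2
    have hconst : ∀ w ∈ ball z ε, f w = f z := by
      have hd : DifferentiableOn ℂ f (ball z ε) := hf.mono hsub
      have hcv : Convex ℝ (ball z ε) := convex_ball z ε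
      intro w hw
      refine hcv.is_const_of_fderivWithin_eq_zero (𝕜 := ℂ) hd ?_ hw (mem_ball_self hε)
      intro x hx
      have hxU : ball z ε ∈ 𝓝 x := isOpen_ball.mem_nhds hx
      rw [fderivWithin_of_mem_nhds hxU]
      have hder := (hball x hx).1
      have hdx : DifferentiableAt ℂ f x := hd.differentiableAt hxU
      ext
      simp [hder]
    have hw : z + ((ε / 2 : ℝ) : ℂ) ∈ ball z ε := by
      simp [abs_of_pos hε]
      linarith
    have h1 := hinj (hsub hw) hz ((hconst _ hw))
    have h2 : ((ε / 2 : ℝ) : ℂ) = 0 := by simpa using h1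
    have h3 : ε / 2 = 0 := by exact_mod_cast h2
    linarith
  · -- punctured nonvanishing: inverse function plus removable singularity
    rw [eventually_nhdsWithin_iff] at hne
    obtain ⟨ε, hε, hball⟩ := Metric.eventually_nhds_iff_ball.1 (hne.and (hU.mem_nhds hz))
    have hsub : ball z ε ⊆ U := fun w hw => (hball w hw).2
    have hnz : ∀ w ∈ ball z ε, w ≠ z → deriv f w ≠ 0 := fun w hw hwz =>
      (hball w hw).1 (by simpa using hwz)
    have hopen : ∀ s ⊆ ball z ε, IsOpen s → IsOpen (f '' s) := by
      rcases (hfa.mono hsub).is_constant_or_isOpen (convex_ball z ε).isPreconnected with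
        ⟨c, hc⟩ | h
      · exfalso
        have hw : z + ((ε / 2 : ℝ) : ℂ) ∈ ball z ε := by
          simp [abs_of_pos hε]
          linarith
        have h1 := hinj (hsub hw) hz ((hc _ hw).trans (hc _ (mem_ball_self hε)).symm)
        have h2 : ((ε / 2 : ℝ) : ℂ) = 0 := by simpa using h1
        have h3 : ε / 2 = 0 := by exact_mod_cast h2
        linarith
      · exact h
    set B := ball z ε with hB
    set g : ℂ → ℂ := Function.invFunOn f B with hg
    have hgl : ∀ x ∈ B, g (f x) = x := fun x hx =>
      (hinj.mono hsub).leftInvOn_invFunOn hx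
    have hgm : ∀ y ∈ f '' B, g y ∈ B := fun y hy => Function.invFunOn_mem hy
    have hgr : ∀ y ∈ f '' B, f (g y) = y := fun y hy => Function.invFunOn_eq hy
    have hV : IsOpen (f '' B) := hopen B subset_rfl isOpen_ball
    have hcont : ContinuousOn g (f '' B) := by
      rw [_root_.continuousOn_iff']
      intro t ht
      refine ⟨f '' (t ∩ B), hopen _ inter_subset_right (ht.inter isOpen_ball), ?_⟩
      ext y
      constructor
      · rintro ⟨hy1, hy2⟩
        refine ⟨⟨g y, ⟨hy1, hgm y hy2⟩, hgr y hy2⟩, hy2⟩
      · rintro ⟨⟨x, ⟨hx1, hx2⟩, rfl⟩, hy2⟩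
        refine ⟨?_, hy2⟩
        simpa [hgl x hx2] using hx1
    have hdiff : DifferentiableOn ℂ g (f '' B \ {f z}) := by
      rintro y ⟨hy, hyz⟩
      have hgy : g y ≠ z := by
        intro h
        apply hyz
        rw [← hgr y hy, h]
        rfl
      have hnz' := hnz (g y) (hgm y hy) hgy
      have hder : HasDerivAt f (deriv f (g y)) (g y) :=
        (hf.differentiableAt (hU.mem_nhds (hsub (hgm y hy)))).hasDerivAt
      have hev : ∀ᶠ y' in 𝓝 y, f (g y') = y' :=
        Filter.eventually_of_mem (hV.mem_nhds hy) fun y' hy' => hgr y' hy'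
      exact (HasDerivAt.of_local_left_inverse (hcont.continuousAt (hV.mem_nhds hy)) hder hnz'
        hev).differentiableAt.differentiableWithinAt
    have hzB : z ∈ B := mem_ball_self hε
    have hfz : f z ∈ f '' B := mem_image_of_mem f hzB
    have hgd : DifferentiableOn ℂ g (f '' B) :=
      (Complex.differentiableOn_compl_singleton_and_continuousAt_iff (hV.mem_nhds hfz)).1
        ⟨hdiff, hcont.continuousAt (hV.mem_nhds hfz)⟩
    have hgda : DifferentiableAt ℂ g (f z) := hgd.differentiableAt (hV.mem_nhds hfz)
    have hfda : DifferentiableAt ℂ f z := hf.differentiableAt (hU.mem_nhds hz)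
    have hcomp : HasDerivAt (g ∘ f) (deriv g (f z) * deriv f z) z :=
      hgda.hasDerivAt.comp z hfda.hasDerivAt
    have hid : g ∘ f =ᶠ[𝓝 z] id := by
      filter_upwards [isOpen_ball.mem_nhds hzB] with x hx
      exact hgl x hx
    have hone : deriv g (f z) * deriv f z = 1 := by
      have h1 : HasDerivAt (g ∘ f) 1 z := (hasDerivAt_id z).congr_of_eventuallyEq hid
      exact hcomp.unique h1
    intro h0
    rw [h0, mul_zero] at hone
    exact zero_ne_one hone

/-- Holomorphic inverse of an injective holomorphic function: `invFunOn` is differentiable on the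
image, and the image is open. -/
lemma isOpen_image_and_differentiableOn_invFunOn {f : ℂ → ℂ} {U : Set ℂ} (hU : IsOpen U)
    (hf : DifferentiableOn ℂ f U) (hinj : InjOn f U) :
    IsOpen (f '' U) ∧ DifferentiableOn ℂ (Function.invFunOn f U) (f '' U) := by
  have hdz : ∀ z ∈ U, deriv f z ≠ 0 := fun z hz => deriv_ne_zero_of_injOn hU hf hinj hz
  have hsd : ∀ z ∈ U, HasStrictDerivAt f (deriv f z) z := fun z hz =>
    ((hf.analyticOnNhd hU) z hz).hasStrictDerivAt
  have hopen : IsOpen (f '' U) := by
    rw [isOpen_iff_mem_nhds]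
    rintro y ⟨z, hz, rfl⟩
    have := (hsd z hz).map_nhds_eq (hdz z hz)
    rw [← this]
    exact image_mem_map (hU.mem_nhds hz)
  refine ⟨hopen, ?_⟩
  rintro y ⟨z, hz, rfl⟩
  set g := Function.invFunOn f U with hg
  have hgl : ∀ x ∈ U, g (f x) = x := fun x hx => hinj.leftInvOn_invFunOn hx
  have hev : ∀ᶠ x in 𝓝 z, g (f x) = x :=
    Filter.eventually_of_mem (hU.mem_nhds hz) fun x hx => hgl x hx
  have hloc := (hsd z hz).to_local_left_inverse (hdz z hz) hev
  exact hloc.hasDerivAt.differentiableAt.differentiableWithinAt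

end Crest.Agent.CrouzeixPoisson
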