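import Crest.Agent.CrouzeixPoisson.Poisson

/-!
# Change of variables along a `C¹` injective closed curve on the unit circle.
-/

set_option autoImplicit false

open Complex Filter Topology Set Metric
open scoped ComplexConjugate Real

namespace Crest.Agent.CrouzeixPoisson

lemma eI_add_two_pi (φ : ℝ) : eI (φ + 2 * π) = eI φ := by
  unfold eI
  push_cast
  rw [add_mul, Complex.exp_add, Complex.exp_two_pi_mul_I, mul_one]

lemma eI_neg (φ : ℝ) : eI (-φ) = conj (eI φ) := by
  rw [conj_eI, eI]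
  push_cast
  rfl

lemma eI_eq_eI_iff {x y : ℝ} (h : eI x = eI y) : ∃ k : ℤ, x = y + k * (2 * π) := by
  unfold eI at h
  obtain ⟨k, hk⟩ := Complex.exp_eq_exp_iff_exists_int.1 h
  refine ⟨k, ?_⟩
  have h2 : ((x : ℂ) - y - k * (2 * π)) * I = 0 := by
    linear_combination hk
  have h3 : ((x : ℂ) - y - k * (2 * π)) = 0 := by
    rcases mul_eq_zero.1 h2 with h | h
    · exact h
    · exact absurd h Complex.I_ne_zero
  have h4 : ((x - y - k * (2 * π) : ℝ) : ℂ) = 0 := by
    push_cast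
    exact h3
  have h5 : x - y - k * (2 * π) = 0 := by exact_mod_cast h4
  linarith

/-- The abstract monotone lift: total increase is `2π`. -/
lemma lift_total {Φ Y : ℝ → ℝ} {E : ℝ → ℂ} {ω : ℝ → ℂ}
    (hd : ∀ θ, HasDerivAt Φ (Y θ) θ) (hpos : ∀ θ, 0 < Y θ)
    (hE : ∀ θ, E (Φ θ) = ω θ) (hper : ω (2 * π) = ω 0)
    (hEper : ∀ x, E (x + 2 * π) = E x)
    (hEinj : ∀ x y, E x = E y → ∃ k : ℤ, x = y + k * (2 * π))
    (hinj : InjOn ω (Ico 0 (2 * π))) : Φ (2 * π) = Φ 0 + 2 * π := by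
  have hmono : StrictMono Φ := strictMono_of_deriv_pos fun θ => by
    rw [(hd θ).deriv]
    exact hpos θ
  have hcont : Continuous Φ := continuous_iff_continuousAt.2 fun θ => (hd θ).continuousAt
  have hpi := Real.pi_pos
  obtain ⟨k, hk⟩ := hEinj (Φ (2 * π)) (Φ 0) (by rw [hE, hE, hper])
  have hlt : Φ 0 < Φ (2 * π) := hmono (by positivity)
  have hkpos : 0 < k := by
    by_contra hk0
    push Not at hk0
    have : (k : ℝ) ≤ 0 := by exact_mod_cast hk0
    nlinarith
  rcases (Int.add_one_le_iff.2 hkpos).eq_or_lt with h1 | h2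
  · have : k = 1 := by omega
    subst this
    rw [hk]
    simp
  · exfalso
    have hk2 : (2 : ℝ) ≤ k := by
      have : 2 ≤ k := by omega
      exact_mod_cast this
    have hmem : Φ 0 + 2 * π ∈ Icc (Φ 0) (Φ (2 * π)) := by
      constructor
      · linarith
      · rw [hk]
        nlinarith
    obtain ⟨θ1, hθ1, hθ2⟩ := intermediate_value_Icc (by positivity) hcont.continuousOn hmem
    have hθ0 : θ1 ≠ 0 := by
      rintro rfl
      linarith
    have hθ3 : θ1 ≠ 2 * π := by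
      rintro rfl
      rw [hk] at hθ2
      nlinarith
    have hω : ω θ1 = ω 0 := by
      rw [← hE, ← hE, hθ2, hEper]
    have := hinj ⟨hθ1.1, lt_of_le_of_ne hθ1.2 hθ3⟩ ⟨le_rfl, by positivity⟩ hω
    exact hθ0 this

lemma integral_lift {Φ Y : ℝ → ℝ} {H : ℝ → ℂ}
    (hd : ∀ θ, HasDerivAt Φ (Y θ) θ) (hYc : Continuous Y)
    (hHc : Continuous H) (hHper : Function.Periodic H (2 * π))
    (hΦ : Φ (2 * π) = Φ 0 + 2 * π) :
    ∫ θ in (0 : ℝ)..2 * π, (Y θ : ℂ) * H (Φ θ) = ∫ x in (0 : ℝ)..2 * π, H x := by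
  have hpi := Real.pi_pos
  have h1 : ∫ θ in (0 : ℝ)..2 * π, (Y θ : ℂ) * H (Φ θ)
      = ∫ θ in (0 : ℝ)..2 * π, (Y θ) • H (Φ θ) := by
    congr 1
  have h2 := intervalIntegral.integral_deriv_smul_comp (a := 0) (b := 2 * π) (f := Φ) (f' := Y)
    (g := H) (fun θ _ => hd θ) hYc.continuousOn hHc
  simp only [Function.comp] at h2
  rw [h1, h2, hΦ]
  have := hHper.intervalIntegral_add_eq (Φ 0) 0
  simpa [smul_eq_mul] using this

/-- Change of variables along a `C¹` injective closed curve on the unit circle. -/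
theorem circle_change_of_var {ω ω' : ℝ → ℂ} (hd : ∀ θ, HasDerivAt ω (ω' θ) θ)
    (hc : Continuous ω') (h1 : ∀ θ, ‖ω θ‖ = 1) (hne : ∀ θ, ω' θ ≠ 0)
    (hper : ω (2 * π) = ω 0) (hinj : InjOn ω (Ico 0 (2 * π)))
    {F : ℂ → ℂ} (hF : ContinuousOn F (sphere 0 1)) :
    ∫ θ in (0 : ℝ)..2 * π, ((‖ω' θ‖ : ℝ) : ℂ) * F (ω θ) = ∫ φ in (0 : ℝ)..2 * π, F (eI φ) := by
  have hpi := Real.pi_pos
  have hωc : Continuous ω := continuous_iff_continuousAt.2 fun θ => (hd θ).continuousAt
  have hcc : ∀ θ, ω θ * conj (ω θ) = 1 := by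
    intro θ
    rw [Complex.mul_conj, Complex.normSq_eq_norm_sq, h1 θ]
    simp
  set y : ℝ → ℝ := fun θ => (ω' θ * conj (ω θ)).im with hy
  have hyc : Continuous y := by
    have : Continuous fun θ => ω' θ * conj (ω θ) := hc.mul (Complex.continuous_conj.comp hωc)
    exact Complex.continuous_im.comp this
  -- `ω' = i y ω`
  have hre : ∀ θ, (ω' θ * conj (ω θ)).re = 0 := by
    intro θ
    have h2 : HasDerivAt (fun θ => ω θ * star (ω θ)) (ω' θ * star (ω θ) + ω θ * star (ω' θ)) θ :=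
      (hd θ).mul (hd θ).star
    have h3 : (fun θ => ω θ * star (ω θ)) = fun _ => (1 : ℂ) := by
      funext t
      exact hcc t
    rw [h3] at h2
    have h4 := h2.unique (hasDerivAt_const θ (1 : ℂ))
    have h5 := congrArg Complex.re h4
    simp only [Complex.star_def, Complex.add_re, Complex.zero_re] at h5
    have h6 : (ω θ * conj (ω' θ)).re = (ω' θ * conj (ω θ)).re := by
      simp [Complex.mul_re]
      ring
    rw [h6] at h5
    linarith
  have hA : ∀ θ, ω' θ = I * (y θ : ℂ) * ω θ := by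
    intro θ
    have h2 : ω' θ * conj (ω θ) = I * (y θ : ℂ) := by
      apply Complex.ext
      · simp [hre θ, hy]
      · simp [hy]
    have h3 : ω' θ = (ω' θ * conj (ω θ)) * ω θ := by
      rw [mul_assoc, mul_comm (conj (ω θ)), hcc θ, mul_one]
    rw [h3, h2]
  have hnorm : ∀ θ, ‖ω' θ‖ = |y θ| := by
    intro θ
    rw [hA θ]
    simp [h1 θ]
  have hyne : ∀ θ, y θ ≠ 0 := by
    intro θ h0
    apply hne θ
    rw [hA θ, h0]
    simp
  -- the lift
  let Φ0 : ℝ → ℝ := fun θ => arg (ω 0) + ∫ t in (0 : ℝ)..θ, y t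
  have hΦd : ∀ θ, HasDerivAt Φ0 (y θ) θ := fun θ =>
    ((hyc.integral_hasStrictDerivAt 0 θ).hasDerivAt).const_add _
  have hlift : ∀ θ, eI (Φ0 θ) = ω θ := by
    have hcex : ∀ θ, HasDerivAt (fun θ => cexp (-((Φ0 θ : ℝ) : ℂ) * I))
        (cexp (-((Φ0 θ : ℝ) : ℂ) * I) * (-((y θ : ℝ) : ℂ) * I)) θ := by
      intro θ
      have h2 : HasDerivAt (fun θ => ((Φ0 θ : ℝ) : ℂ)) ((y θ : ℝ) : ℂ) θ := (hΦd θ).ofReal_comp
      exact (((h2.neg).mul_const I)).cexp
    have hQ : ∀ θ, HasDerivAt (fun θ => ω θ * cexp (-((Φ0 θ : ℝ) : ℂ) * I)) 0 θ := by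
      intro θ
      have h2 := (hd θ).mul (hcex θ)
      have h3 : ω' θ * cexp (-((Φ0 θ : ℝ) : ℂ) * I) +
          ω θ * (cexp (-((Φ0 θ : ℝ) : ℂ) * I) * (-((y θ : ℝ) : ℂ) * I)) = 0 := by
        rw [hA θ]
        ring
      rw [h3] at h2
      exact h2
    have hconst := is_const_of_deriv_eq_zero
      (fun θ => (hQ θ).differentiableAt) (fun θ => (hQ θ).deriv)
    have h0 : ω 0 * cexp (-((Φ0 0 : ℝ) : ℂ) * I) = 1 := by
      have h2 : Φ0 0 = arg (ω 0) := by simp [Φ0]
      rw [h2]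
      have h3 := Complex.norm_mul_exp_arg_mul_I (ω 0)
      rw [h1 0] at h3
      simp only [ofReal_one, one_mul] at h3
      nth_rewrite 1 [← h3]
      rw [← Complex.exp_add]
      simp
    intro θ
    have h2 : ω θ * cexp (-((Φ0 θ : ℝ) : ℂ) * I) = 1 := by
      rw [← h0]
      exact hconst θ 0
    unfold eI
    have h3 : cexp (((Φ0 θ : ℝ) : ℂ) * I) * cexp (-((Φ0 θ : ℝ) : ℂ) * I) = 1 := by
      rw [← Complex.exp_add]
      simp
    calc cexp (((Φ0 θ : ℝ) : ℂ) * I)
        = cexp (((Φ0 θ : ℝ) : ℂ) * I) * (ω θ * cexp (-((Φ0 θ : ℝ) : ℂ) * I)) := by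
          rw [h2, mul_one]
      _ = ω θ * (cexp (((Φ0 θ : ℝ) : ℂ) * I) * cexp (-((Φ0 θ : ℝ) : ℂ) * I)) := by ring
      _ = ω θ := by rw [h3, mul_one]
  -- sign
  have hsign : (∀ θ, 0 < y θ) ∨ (∀ θ, y θ < 0) := by
    rcases lt_or_gt_of_ne (hyne 0) with h0 | h0
    · right
      intro θ
      by_contra h
      push Not at h
      obtain ⟨t, ht⟩ := intermediate_value_univ 0 θ hyc ⟨h0.le, h⟩
      exact hyne t ht
    · left
      intro θ
      by_contra h
      push Not at h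
      obtain ⟨t, ht⟩ := intermediate_value_univ θ 0 hyc ⟨h, h0.le⟩
      exact hyne t ht
  have hGc : Continuous fun x => F (eI x) :=
    hF.comp_continuous continuous_eI fun x => by simp [norm_eI]
  have hGper : Function.Periodic (fun x => F (eI x)) (2 * π) := fun x => by
    simp only [eI_add_two_pi]
  rcases hsign with hpos | hneg
  · have hT := lift_total hΦd hpos hlift hper eI_add_two_pi
      (fun x y h => eI_eq_eI_iff h) hinj
    have := integral_lift hΦd hyc hGc hGper hT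
    rw [← this]
    congr 1
    funext θ
    rw [hnorm θ, abs_of_pos (hpos θ), hlift θ]
  · let Φ : ℝ → ℝ := fun θ => - Φ0 θ
    let Y : ℝ → ℝ := fun θ => - y θ
    have hd2 : ∀ θ, HasDerivAt Φ (Y θ) θ := fun θ => (hΦd θ).neg
    have hYc : Continuous Y := hyc.neg
    have hT := lift_total (E := fun x => eI (-x)) (ω := ω) hd2 (fun θ => neg_pos.2 (hneg θ))
      (fun θ => by simp [Φ, hlift]) hper
      (fun x => by
        have := eI_add_two_pi (-(x + 2 * π))
        rw [← this]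
        congr 1
        ring)
      (fun x y h => by
        obtain ⟨k, hk⟩ := eI_eq_eI_iff h
        refine ⟨-k, ?_⟩
        push_cast
        linarith) hinj
    have hHc : Continuous fun x => F (eI (-x)) := hGc.comp continuous_neg
    have hHper : Function.Periodic (fun x => F (eI (-x))) (2 * π) := fun x => by
      have := eI_add_two_pi (-(x + 2 * π))
      simp only
      rw [← this]
      congr 2
      ring
    have h2 := integral_lift hd2 hYc hHc hHper hT
    have h3 : ∫ x in (0 : ℝ)..2 * π, F (eI (-x)) = ∫ x in (0 : ℝ)..2 * π, F (eI x) := by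
      have h4 := intervalIntegral.integral_comp_neg (a := 0) (b := 2 * π) (fun x => F (eI x))
      rw [h4]
      have h5 := hGper.intervalIntegral_add_eq (-(2 * π)) 0
      simp only [neg_zero]
      rw [← zero_add (2 * π)]
      rw [show (-(0 + 2 * π) : ℝ) = -(2 * π) by ring]
      rw [← h5]
      simp
    rw [← h3, ← h2]
    congr 1
    funext θ
    have h6 : ‖ω' θ‖ = Y θ := by
      rw [hnorm θ, abs_of_neg (hneg θ)]
    rw [h6]
    simp only [Φ, neg_neg, hlift]

end Crest.Agent.CrouzeixPoisson
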