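import Crest.Agent.CrouzeixPoisson.Basic
import Crest.Agent.CrouzeixPoisson.CircleCV

/-!
# The curve `θ ↦ f (G (e^{iθ}))` on the unit circle.
-/

set_option autoImplicit false

open Complex Filter Topology Set Metric
open scoped ComplexConjugate Real

namespace Crest.Agent.CrouzeixPoisson

section Curve

variable {Ω U : Set ℂ} {f G : ℂ → ℂ} {r : ℝ}

lemma eI_mem_dom (hr₂ : r < 1) (θ : ℝ) : eI θ ∈ {t : ℂ | r < ‖t‖} := by
  simp [norm_eI, hr₂]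

lemma isOpen_dom : IsOpen {t : ℂ | r < ‖t‖} := isOpen_lt continuous_const continuous_norm

lemma curve_mem_closure (hG₂ : InjOn G {t : ℂ | r < ‖t‖}) (hr₂ : r < 1)
    (hG₃ : G '' {t : ℂ | 1 < ‖t‖} = (closure Ω)ᶜ) (θ : ℝ) : G (eI θ) ∈ closure Ω := by
  by_contra h
  have h1 : G (eI θ) ∈ G '' {t : ℂ | 1 < ‖t‖} := by
    rw [hG₃]
    exact h
  obtain ⟨t, ht, hte⟩ := h1
  have ht' : t ∈ {t : ℂ | r < ‖t‖} := by
    have : 1 < ‖t‖ := ht
    simp only [mem_ofPred_eq]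
    linarith
  have := hG₂ ht' (eI_mem_dom hr₂ θ) hte
  rw [this] at ht
  have h2 : 1 < ‖eI θ‖ := ht
  rw [norm_eI] at h2
  exact lt_irrefl _ h2

lemma curve_not_mem (hΩ₁ : IsOpen Ω) (hG₁ : DifferentiableOn ℂ G {t : ℂ | r < ‖t‖}) (hr₂ : r < 1)
    (hG₃ : G '' {t : ℂ | 1 < ‖t‖} = (closure Ω)ᶜ) (θ : ℝ) : G (eI θ) ∉ Ω := by
  intro h
  have hcont : ContinuousAt G (eI θ) :=
    (hG₁.differentiableAt (isOpen_dom.mem_nhds (eI_mem_dom hr₂ θ))).continuousAt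
  have hpath : ContinuousAt (fun s : ℝ => (((1 + s : ℝ) : ℂ)) * eI θ) 0 := by
    fun_prop
  have hcomp : ContinuousAt (fun s : ℝ => G (((1 + s : ℝ) : ℂ) * eI θ)) 0 := by
    refine ContinuousAt.comp (f := fun s : ℝ => ((1 + s : ℝ) : ℂ) * eI θ) (g := G) ?_ hpath
    simpa using hcont
  have h0 : G (((1 + (0 : ℝ) : ℝ) : ℂ) * eI θ) ∈ Ω := by simpa using h
  have hev : ∀ᶠ s : ℝ in 𝓝 0, G (((1 + s : ℝ) : ℂ) * eI θ) ∈ Ω :=
    hcomp.eventually_mem (hΩ₁.mem_nhds h0)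
  have hev2 : ∀ᶠ s : ℝ in 𝓝[>] 0, G (((1 + s : ℝ) : ℂ) * eI θ) ∈ Ω ∧ 0 < s :=
    (hev.filter_mono nhdsWithin_le_nhds).and self_mem_nhdsWithin
  obtain ⟨s, hs, hs0⟩ := hev2.exists
  have hmem : G (((1 + s : ℝ) : ℂ) * eI θ) ∈ G '' {t : ℂ | 1 < ‖t‖} := by
    refine mem_image_of_mem G ?_
    simp only [mem_ofPred_eq, norm_mul, norm_eI, mul_one, Complex.norm_real, Real.norm_eq_abs]
    rw [abs_of_pos (by linarith)]
    linarith
  rw [hG₃] at hmem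
  exact hmem (subset_closure hs)

lemma norm_curve_eq_one (hΩ₁ : IsOpen Ω) (hU : IsOpen U) (hΩU : closure Ω ⊆ U)
    (hf₁ : DifferentiableOn ℂ f U) (hf₂ : InjOn f U) (hf₃ : f '' Ω = ball 0 1)
    (hG₁ : DifferentiableOn ℂ G {t : ℂ | r < ‖t‖}) (hG₂ : InjOn G {t : ℂ | r < ‖t‖}) (hr₂ : r < 1)
    (hG₃ : G '' {t : ℂ | 1 < ‖t‖} = (closure Ω)ᶜ) (θ : ℝ) : ‖f (G (eI θ))‖ = 1 := by
  have hmem := curve_mem_closure hG₂ hr₂ hG₃ θ
  have hnot := curve_not_mem hΩ₁ hG₁ hr₂ hG₃ θ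
  apply le_antisymm
  · have hcl : f '' closure Ω ⊆ closure (f '' Ω) :=
      (hf₁.continuousOn.mono hΩU).image_closure
    have h1 := hcl (mem_image_of_mem f hmem)
    rw [hf₃, closure_ball (0 : ℂ) one_ne_zero] at h1
    simpa using h1
  · by_contra hlt
    push Not at hlt
    have h1 : f (G (eI θ)) ∈ f '' Ω := by
      rw [hf₃]
      simpa using hlt
    obtain ⟨z, hz, hzf⟩ := h1
    have := hf₂ (hΩU (subset_closure hz)) (hΩU hmem) hzf
    exact hnot (this ▸ hz)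

/-- The closed disc is in the image of the closure. -/
lemma closedBall_subset_image (hΩ₂ : Bornology.IsBounded Ω) (hΩU : closure Ω ⊆ U)
    (hf₁ : DifferentiableOn ℂ f U) (hf₃ : f '' Ω = ball 0 1) :
    closedBall (0 : ℂ) 1 ⊆ f '' closure Ω := by
  have hcomp : IsCompact (f '' closure Ω) :=
    (hΩ₂.isCompact_closure).image_of_continuousOn (hf₁.continuousOn.mono hΩU)
  have hcl : closure (ball (0 : ℂ) 1) ⊆ f '' closure Ω := by
    refine closure_minimal ?_ hcomp.isClosed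
    rw [← hf₃]
    exact image_mono subset_closure
  rwa [closure_ball (0 : ℂ) one_ne_zero] at hcl

lemma hasDerivAt_eI (θ : ℝ) : HasDerivAt eI (I * eI θ) θ := by
  have h1 : HasDerivAt (fun t : ℝ => (t : ℂ) * I) (1 * I) θ :=
    (Complex.ofRealCLM.hasDerivAt (x := θ)).mul_const I
  have h2 := h1.cexp
  have h3 : cexp ((θ : ℂ) * I) * (1 * I) = I * eI θ := by
    unfold eI
    ring
  rw [h3] at h2
  exact h2

/-- The derivative of the curve. -/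
noncomputable def curveD (f G : ℂ → ℂ) (θ : ℝ) : ℂ :=
  deriv f (G (eI θ)) * (deriv G (eI θ) * (I * eI θ))

lemma hasDerivAt_curve (hU : IsOpen U) (hΩU : closure Ω ⊆ U)
    (hf₁ : DifferentiableOn ℂ f U)
    (hG₁ : DifferentiableOn ℂ G {t : ℂ | r < ‖t‖}) (hG₂ : InjOn G {t : ℂ | r < ‖t‖}) (hr₂ : r < 1)
    (hG₃ : G '' {t : ℂ | 1 < ‖t‖} = (closure Ω)ᶜ) (θ : ℝ) :
    HasDerivAt (fun θ => f (G (eI θ))) (curveD f G θ) θ := by
  have hGd : HasDerivAt G (deriv G (eI θ)) (eI θ) :=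
    (hG₁.differentiableAt (isOpen_dom.mem_nhds (eI_mem_dom hr₂ θ))).hasDerivAt
  have hmem := hΩU (curve_mem_closure hG₂ hr₂ hG₃ θ)
  have hfd : HasDerivAt f (deriv f (G (eI θ))) (G (eI θ)) :=
    (hf₁.differentiableAt (hU.mem_nhds hmem)).hasDerivAt
  have h1 : HasDerivAt (fun θ => G (eI θ)) ((I * eI θ) • deriv G (eI θ)) θ :=
    hGd.scomp θ (hasDerivAt_eI θ)
  have h2 : HasDerivAt (fun θ => f (G (eI θ))) (((I * eI θ) • deriv G (eI θ)) • deriv f (G (eI θ))) θ :=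
    hfd.scomp θ h1
  convert h2 using 1
  unfold curveD
  simp only [smul_eq_mul]
  ring

lemma continuous_curve (hG₁ : DifferentiableOn ℂ G {t : ℂ | r < ‖t‖}) (hr₂ : r < 1) :
    Continuous fun θ => G (eI θ) := by
  refine continuous_iff_continuousAt.2 fun θ => ?_
  have hGd : HasDerivAt G (deriv G (eI θ)) (eI θ) :=
    (hG₁.differentiableAt (isOpen_dom.mem_nhds (eI_mem_dom hr₂ θ))).hasDerivAt
  exact (hGd.scomp θ (hasDerivAt_eI θ)).continuousAt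

lemma continuous_curveD (hU : IsOpen U) (hΩU : closure Ω ⊆ U)
    (hf₁ : DifferentiableOn ℂ f U)
    (hG₁ : DifferentiableOn ℂ G {t : ℂ | r < ‖t‖}) (hG₂ : InjOn G {t : ℂ | r < ‖t‖}) (hr₂ : r < 1)
    (hG₃ : G '' {t : ℂ | 1 < ‖t‖} = (closure Ω)ᶜ) :
    Continuous (curveD f G) := by
  have hg := continuous_curve hG₁ hr₂
  have hfc : ContinuousOn (deriv f) U := (hf₁.analyticOnNhd hU).deriv.continuousOn
  have hGc : ContinuousOn (deriv G) {t : ℂ | r < ‖t‖} :=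
    (hG₁.analyticOnNhd isOpen_dom).deriv.continuousOn
  have h1 : Continuous fun θ => deriv f (G (eI θ)) :=
    hfc.comp_continuous hg fun θ => hΩU (curve_mem_closure hG₂ hr₂ hG₃ θ)
  have h2 : Continuous fun θ => deriv G (eI θ) :=
    hGc.comp_continuous continuous_eI fun θ => eI_mem_dom hr₂ θ
  have h3 := continuous_eI
  unfold curveD
  exact h1.mul (h2.mul (continuous_const.mul h3))

lemma curveD_ne_zero (hU : IsOpen U) (hΩU : closure Ω ⊆ U)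
    (hf₁ : DifferentiableOn ℂ f U) (hf₂ : InjOn f U)
    (hG₁ : DifferentiableOn ℂ G {t : ℂ | r < ‖t‖}) (hG₂ : InjOn G {t : ℂ | r < ‖t‖}) (hr₂ : r < 1)
    (hG₃ : G '' {t : ℂ | 1 < ‖t‖} = (closure Ω)ᶜ) (θ : ℝ) : curveD f G θ ≠ 0 := by
  unfold curveD
  have h1 := deriv_ne_zero_of_injOn hU hf₁ hf₂ (hΩU (curve_mem_closure hG₂ hr₂ hG₃ θ))
  have h2 := deriv_ne_zero_of_injOn isOpen_dom hG₁ hG₂ (eI_mem_dom hr₂ θ)
  have h3 : eI θ ≠ 0 := by
    intro h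
    have := norm_eI θ
    rw [h] at this
    simp at this
  exact mul_ne_zero h1 (mul_ne_zero h2 (mul_ne_zero Complex.I_ne_zero h3))

lemma curve_injOn (hΩU : closure Ω ⊆ U) (hf₂ : InjOn f U)
    (hG₂ : InjOn G {t : ℂ | r < ‖t‖}) (hr₂ : r < 1)
    (hG₃ : G '' {t : ℂ | 1 < ‖t‖} = (closure Ω)ᶜ) :
    InjOn (fun θ => f (G (eI θ))) (Ico 0 (2 * π)) := by
  intro x hx y hy hxy
  have h1 := hf₂ (hΩU (curve_mem_closure hG₂ hr₂ hG₃ x)) (hΩU (curve_mem_closure hG₂ hr₂ hG₃ y)) hxy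
  have h2 := hG₂ (eI_mem_dom hr₂ x) (eI_mem_dom hr₂ y) h1
  obtain ⟨k, hk⟩ := eI_eq_eI_iff h2
  have hpi := Real.pi_pos
  have hk1 : (k : ℝ) * (2 * π) < 2 * π := by
    have := hx.2
    have := hy.1
    linarith
  have hk2 : -(2 * π) < (k : ℝ) * (2 * π) := by
    have := hx.1
    have := hy.2
    linarith
  have hk3 : (k : ℝ) < 1 := by nlinarith
  have hk4 : (-1 : ℝ) < k := by nlinarith
  have hk5 : k = 0 := by
    have h5 : k < 1 := by exact_mod_cast hk3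
    have h6 : -1 < k := by exact_mod_cast hk4
    omega
  subst hk5
  simpa using hk

end Curve

end Crest.Agent.CrouzeixPoisson
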