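import Crest.Agent.CrouzeixPoisson.Basic
import Crest.Prelude.Def_NumRangeMetric

/-!
# Functional calculus by jets at the spectrum.
-/

set_option autoImplicit false

open Complex Filter Topology Set Metric Polynomial
open scoped Nat

namespace Crest.Agent.CrouzeixPoisson

open Crest.AnalysisR.NumRange

/-- Two functions with the same derivatives of order `< N` at `μ`. -/
def SameJet (N : ℕ) (F G : ℂ → ℂ) (μ : ℂ) : Prop :=
  ∀ j < N, iteratedDeriv j F μ = iteratedDeriv j G μ

lemma SameJet.mul {N : ℕ} {F F' G G' : ℂ → ℂ} {μ : ℂ} (hF : AnalyticAt ℂ F μ)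
    (hF' : AnalyticAt ℂ F' μ) (hG : AnalyticAt ℂ G μ) (hG' : AnalyticAt ℂ G' μ)
    (h1 : SameJet N F F' μ) (h2 : SameJet N G G' μ) :
    SameJet N (F * G) (F' * G') μ := by
  intro j hj
  rw [iteratedDeriv_mul (n := j) hF.contDiffAt hG.contDiffAt,
    iteratedDeriv_mul (n := j) hF'.contDiffAt hG'.contDiffAt]
  refine Finset.sum_congr rfl fun i hi => ?_
  have hi' : i ≤ j := Nat.lt_succ_iff.1 (Finset.mem_range.1 hi)
  rw [h1 i (by omega), h2 (j - i) (by omega)]

lemma SameJet.add {N : ℕ} {F F' G G' : ℂ → ℂ} {μ : ℂ} (hF : AnalyticAt ℂ F μ)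
    (hF' : AnalyticAt ℂ F' μ) (hG : AnalyticAt ℂ G μ) (hG' : AnalyticAt ℂ G' μ)
    (h1 : SameJet N F F' μ) (h2 : SameJet N G G' μ) :
    SameJet N (F + G) (F' + G') μ := by
  intro j hj
  rw [iteratedDeriv_add (n := j) hF.contDiffAt hG.contDiffAt,
    iteratedDeriv_add (n := j) hF'.contDiffAt hG'.contDiffAt, h1 j hj, h2 j hj]

lemma analyticAt_poly_comp {g : ℂ → ℂ} {μ : ℂ} (hg : AnalyticAt ℂ g μ) (Q : ℂ[X]) :
    AnalyticAt ℂ (fun z => Q.eval (g z)) μ := by
  have h : AnalyticAt ℂ (fun z => Q.eval z) (g μ) :=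
    (Polynomial.differentiable Q).analyticAt _
  exact h.comp hg

/-- Composition with a polynomial only depends on the jet of the inner function. -/
lemma sameJet_poly_comp {N : ℕ} {p f : ℂ → ℂ} {μ : ℂ} (hp : AnalyticAt ℂ p μ)
    (hf : AnalyticAt ℂ f μ) (h : SameJet N p f μ) (Q : ℂ[X]) :
    SameJet N (fun z => Q.eval (p z)) (fun z => Q.eval (f z)) μ := by
  induction Q using Polynomial.induction_on with
  | C a =>
    intro j _
    simp
  | add P Q hP hQ =>
    have := SameJet.add (analyticAt_poly_comp hp P) (analyticAt_poly_comp hf P)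
      (analyticAt_poly_comp hp Q) (analyticAt_poly_comp hf Q) hP hQ
    simpa [Pi.add_def, Polynomial.eval_add] using this
  | monomial k a ih =>
    have := SameJet.mul (analyticAt_poly_comp hp (C a * X ^ k)) (analyticAt_poly_comp hf (C a * X ^ k))
      hp hf ih h
    have e1 : ∀ g : ℂ → ℂ, (fun z => (C a * X ^ (k + 1) : ℂ[X]).eval (g z))
        = (fun z => (C a * X ^ k : ℂ[X]).eval (g z)) * g := by
      intro g
      funext z
      simp [pow_succ, mul_assoc]
    rw [e1 p, e1 f]
    exact this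

/-- Iterated derivatives of a polynomial. -/
lemma iteratedDeriv_poly (g : ℂ[X]) (j : ℕ) :
    iteratedDeriv j (fun z => g.eval z) = fun z => (derivative^[j] g).eval z := by
  induction j with
  | zero => simp
  | succ j ih =>
    rw [iteratedDeriv_succ, ih, Function.iterate_succ_apply']
    funext z
    exact Polynomial.deriv _

variable {n : ℕ}

/-- A polynomial whose jets of order `< n` vanish on the spectrum of an `n × n` matrix annihilates
that matrix. -/
lemma aeval_eq_zero_of_jets (A : Matrix (Fin n) (Fin n) ℂ) (g : ℂ[X])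
    (h : ∀ μ ∈ spectrum ℂ A, ∀ j < n, (derivative^[j] g).eval μ = 0) :
    Polynomial.aeval A g = 0 := by
  classical
  by_cases hg : g = 0
  · simp [hg]
  have hmon : A.charpoly.Monic := Matrix.charpoly_monic A
  have hdeg : A.charpoly.natDegree = n := by simp [Matrix.charpoly_natDegree_eq_dim A]
  have hle : A.charpoly.roots ≤ g.roots := by
    rw [Multiset.le_iff_count]
    intro μ
    rw [Polynomial.count_roots, Polynomial.count_roots]
    by_cases hroot : A.charpoly.IsRoot μ
    · have hμ : μ ∈ spectrum ℂ A := Matrix.mem_spectrum_of_isRoot_charpoly hroot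
      have h1 : A.charpoly.rootMultiplicity μ ≤ n := by
        have h2 := (Multiset.count_le_card μ A.charpoly.roots).trans (Polynomial.card_roots' _)
        rw [Polynomial.count_roots] at h2
        omega
      refine h1.trans ?_
      rcases Nat.eq_zero_or_pos n with h0 | hpos
      · omega
      obtain ⟨m, rfl⟩ : ∃ m, n = m + 1 := ⟨n - 1, by omega⟩
      have hfac : ((m.factorial : ℕ) : ℂ) ∈ nonZeroDivisors ℂ :=
        mem_nonZeroDivisors_of_ne_zero (by exact_mod_cast Nat.factorial_ne_zero m)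
      have := (Polynomial.lt_rootMultiplicity_iff_isRoot_iterate_derivative_of_mem_nonZeroDivisors
        (t := μ) (n := m) hg hfac).2 (fun k hk => h μ hμ k (by omega))
      omega
    · have : A.charpoly.rootMultiplicity μ = 0 :=
        Polynomial.rootMultiplicity_eq_zero hroot
      omega
  have hdvd : A.charpoly ∣ g :=
    (IsAlgClosed.splits _).dvd_of_roots_le_roots hmon.ne_zero hle
  obtain ⟨c, rfl⟩ := hdvd
  simp [Matrix.aeval_self_charpoly]

/-- If all the jets on the spectrum of a sequence of polynomials tend to zero, then so do the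
values at the matrix (entrywise). -/
lemma tendsto_aeval_zero_of_jets (A : Matrix (Fin n) (Fin n) ℂ) (g : ℕ → ℂ[X])
    (h : ∀ μ ∈ spectrum ℂ A, ∀ j < n,
      Tendsto (fun K => (derivative^[j] (g K)).eval μ) atTop (𝓝 0)) :
    Tendsto (fun K => Polynomial.aeval A (g K)) atTop (𝓝 0) := by
  classical
  let J := {μ : ℂ // μ ∈ A.charpoly.roots.toFinset}
  let L : ℂ[X] →ₗ[ℂ] (J × Fin n → ℂ) :=
    LinearMap.pi fun i => (Polynomial.leval (i.1.1)) ∘ₗ
      ((Polynomial.derivative : ℂ[X] →ₗ[ℂ] ℂ[X]) ^ (i.2 : ℕ))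
  have hL : ∀ (G : ℂ[X]) (i : J × Fin n), L G i = (derivative^[(i.2 : ℕ)] G).eval i.1.1 := by
    intro G i
    simp [L, Polynomial.leval, Module.End.pow_apply]
  let T : ℂ[X] →ₗ[ℂ] Matrix (Fin n) (Fin n) ℂ := (Polynomial.aeval A).toLinearMap
  have hTapp : ∀ G : ℂ[X], T G = Polynomial.aeval A G := fun G => rfl
  have hspec : ∀ μ, μ ∈ spectrum ℂ A → μ ∈ A.charpoly.roots.toFinset := by
    intro μ hμ
    rw [Multiset.mem_toFinset, Polynomial.mem_roots (Matrix.charpoly_monic A).ne_zero]
    exact (Matrix.mem_spectrum_iff_isRoot_charpoly).1 hμ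
  have hker : LinearMap.ker L ≤ LinearMap.ker T := by
    intro G hG
    rw [LinearMap.mem_ker] at hG ⊢
    rw [hTapp]
    refine aeval_eq_zero_of_jets A G fun μ hμ j hj => ?_
    have := congrFun hG (⟨μ, hspec μ hμ⟩, ⟨j, hj⟩)
    rwa [hL] at this
  let F : LinearMap.range L →ₗ[ℂ] Matrix (Fin n) (Fin n) ℂ :=
    ((LinearMap.ker L).liftQ T hker) ∘ₗ (L.quotKerEquivRange.symm : _ →ₗ[ℂ] _)
  obtain ⟨Ψ, hΨ⟩ := LinearMap.exists_extend F
  have hcomp : ∀ G : ℂ[X], Ψ (L G) = T G := by
    intro G
    have h1 : Ψ (L G) = F ⟨L G, LinearMap.mem_range_self L G⟩ := by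
      rw [← hΨ]
      rfl
    rw [h1]
    have h2 : L.quotKerEquivRange.symm ⟨L G, LinearMap.mem_range_self L G⟩
        = Submodule.Quotient.mk G := by
      rw [LinearEquiv.symm_apply_eq]
      rfl
    simp only [F, LinearMap.comp_apply, LinearEquiv.coe_coe, h2]
    rfl
  have hΨc : Continuous Ψ := LinearMap.continuous_of_finiteDimensional Ψ
  have hlim : Tendsto (fun K => L (g K)) atTop (𝓝 0) := by
    rw [tendsto_pi_nhds]
    rintro ⟨⟨μ, hμ⟩, ⟨j, hj⟩⟩
    simp only [hL]
    refine h μ ?_ j hj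
    rw [Multiset.mem_toFinset, Polynomial.mem_roots (Matrix.charpoly_monic A).ne_zero] at hμ
    exact (Matrix.mem_spectrum_iff_isRoot_charpoly).2 hμ
  have := hΨc.continuousAt.tendsto.comp hlim
  simp only [map_zero] at this
  refine this.congr fun K => ?_
  simp [hcomp, hTapp]

/-- Taylor coefficients at `0`. -/
noncomputable def tc (w : ℂ → ℂ) (k : ℕ) : ℂ := (k ! : ℂ)⁻¹ * iteratedDeriv k w 0

lemma hasSum_tc {w : ℂ → ℂ} {R : ℝ} (hw : DifferentiableOn ℂ w (ball 0 R)) {z : ℂ}
    (hz : z ∈ ball (0 : ℂ) R) : HasSum (fun k => tc w k * z ^ k) (w z) := by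
  have := Complex.hasSum_taylorSeries_on_ball hw hz
  have h2 : (fun k => tc w k * z ^ k) =
      fun n : ℕ => (n ! : ℂ)⁻¹ • (z - 0) ^ n • iteratedDeriv n w 0 := by
    funext k
    simp only [tc, smul_eq_mul, sub_zero]
    ring
  rw [h2]
  exact this

lemma summable_norm_tc {w : ℂ → ℂ} {R : ℝ} (hR : 1 < R) (hw : DifferentiableOn ℂ w (ball 0 R)) :
    Summable fun k => ‖tc w k‖ := by
  obtain ⟨R', h1, h2⟩ := exists_between hR
  have hR'0 : 0 < R' := by linarith
  have hz : (R' : ℂ) ∈ ball (0 : ℂ) R := by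
    simp [abs_of_pos hR'0, h2]
  have h3 := (hasSum_tc hw hz).summable.norm
  refine Summable.of_nonneg_of_le (fun _ => norm_nonneg _) (fun k => ?_) h3
  rw [norm_mul, norm_pow, Complex.norm_real, Real.norm_eq_abs, abs_of_pos hR'0]
  exact le_mul_of_one_le_right (norm_nonneg _) (one_le_pow₀ h1.le)

lemma norm_sub_partial_le {w : ℂ → ℂ} {R : ℝ} (hR : 1 < R) (hw : DifferentiableOn ℂ w (ball 0 R))
    {ζ : ℂ} (hζ : ‖ζ‖ < 1) (K : ℕ) :
    ‖w ζ - ∑ k ∈ Finset.range K, tc w k * ζ ^ k‖ ≤ ∑' k, ‖tc w (k + K)‖ := by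
  have hz : ζ ∈ ball (0 : ℂ) R := by simp; linarith
  have h1 := (hasSum_nat_add_iff' K).2 (hasSum_tc hw hz)
  have h2 : Summable fun k => ‖tc w (k + K)‖ :=
    (summable_nat_add_iff K).2 (summable_norm_tc hR hw)
  refine h1.norm_le_of_bounded h2.hasSum fun k => ?_
  rw [norm_mul, norm_pow]
  exact mul_le_of_le_one_right (norm_nonneg _) (pow_le_one₀ (norm_nonneg _) hζ.le)

/-- Functional calculus: for `w` holomorphic on a ball of radius `> 1`, `v = w ∘ f` near the
spectrum, `p` agreeing with `f` and `q` agreeing with `v`, the polynomial `q` at `A` is the power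
series `w` at `p(A)`. -/
theorem hasSum_aeval_of_agrees (A : Matrix (Fin n) (Fin n) ℂ) {f v w : ℂ → ℂ} {p q : ℂ[X]} {R : ℝ}
    (hR : 1 < R) (hf : ∀ μ ∈ spectrum ℂ A, AnalyticAt ℂ f μ)
    (hfμ : ∀ μ ∈ spectrum ℂ A, ‖f μ‖ < 1)
    (hw : DifferentiableOn ℂ w (ball 0 R))
    (hv : ∀ μ ∈ spectrum ℂ A, v =ᶠ[𝓝 μ] fun z => w (f z))
    (hp : AgreesOnSpectrum A f p) (hq : AgreesOnSpectrum A v q) (a b : Fin n)
    (hsum : Summable fun k => tc w k * ((Polynomial.aeval A p) ^ k) a b) :
    HasSum (fun k => tc w k * ((Polynomial.aeval A p) ^ k) a b) (Polynomial.aeval A q a b) := by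
  classical
  set T := Polynomial.aeval A p with hT
  let Q : ℕ → ℂ[X] := fun K => ∑ k ∈ Finset.range K, monomial k (tc w k)
  have hQeval : ∀ K z, (Q K).eval z = ∑ k ∈ Finset.range K, tc w k * z ^ k := by
    intro K z
    simp [Q, Polynomial.eval_finsetSum]
  let g : ℕ → ℂ[X] := fun K => q - (Q K).comp p
  have hgeval : ∀ K z, (g K).eval z = q.eval z - (Q K).eval (p.eval z) := by
    intro K z
    simp [g, Polynomial.eval_comp]
  have hjets : ∀ μ ∈ spectrum ℂ A, ∀ j < n,
      Tendsto (fun K => (derivative^[j] (g K)).eval μ) atTop (𝓝 0) := by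
    intro μ hμ j hj
    have hfa := hf μ hμ
    -- a small closed disc around `μ`
    have hev : ∀ᶠ z in 𝓝 μ, AnalyticAt ℂ f z ∧ ‖f z‖ < 1 :=
      hfa.eventually_analyticAt.and
        (hfa.continuousAt.norm.eventually (gt_mem_nhds (hfμ μ hμ)))
    obtain ⟨ε, hε, hball⟩ := Metric.eventually_nhds_iff_ball.1 hev
    set s := ε / 2 with hs
    have hs0 : 0 < s := by positivity
    have hclosed : closedBall μ s ⊆ ball μ ε := closedBall_subset_ball (by linarith)
    have hballR : ball (0 : ℂ) 1 ⊆ ball 0 R := ball_subset_ball hR.le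
    have hwa : ∀ ζ, ‖ζ‖ < 1 → AnalyticAt ℂ w ζ := by
      intro ζ hζ
      exact (hw.analyticOnNhd isOpen_ball) ζ (hballR (by simpa using hζ))
    have hwf : AnalyticAt ℂ (fun z => w (f z)) μ :=
      (hwa _ (hfμ μ hμ)).comp hfa
    have hpa : AnalyticAt ℂ (fun z => p.eval z) μ := (Polynomial.differentiable p).analyticAt _
    have hqa : AnalyticAt ℂ (fun z => q.eval z) μ := (Polynomial.differentiable q).analyticAt _
    -- the derivative equals that of the difference
    have hkey : ∀ K, (derivative^[j] (g K)).eval μ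
        = iteratedDeriv j (fun z => w (f z) - (Q K).eval (f z)) μ := by
      intro K
      have h1 : (derivative^[j] (g K)).eval μ = iteratedDeriv j (fun z => (g K).eval z) μ := by
        rw [iteratedDeriv_poly]
      have h2 : (fun z => (g K).eval z)
          = (fun z => q.eval z) - (fun z => (Q K).eval (p.eval z)) := by
        funext z
        simp [hgeval]
      have hQp := analyticAt_poly_comp hpa (Q K)
      have hQf := analyticAt_poly_comp hfa (Q K)
      rw [h1, h2, iteratedDeriv_sub (n := j) hqa.contDiffAt hQp.contDiffAt]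
      have h3 : (fun z => w (f z) - (Q K).eval (f z))
          = (fun z => w (f z)) - (fun z => (Q K).eval (f z)) := rfl
      rw [h3, iteratedDeriv_sub (n := j) hwf.contDiffAt hQf.contDiffAt]
      have h4 := hq μ hμ j hj
      have h5 := (hv μ hμ).iteratedDeriv_eq j
      have h6 := sameJet_poly_comp hpa hfa (fun i hi => hp μ hμ i hi) (Q K) j hj
      rw [h4, h5, h6]
    have hbound : ∀ K, ‖(derivative^[j] (g K)).eval μ‖
        ≤ j.factorial * (∑' k, ‖tc w (k + K)‖) / s ^ j := by
      intro K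
      rw [hkey]
      refine Complex.norm_iteratedDeriv_le_of_forall_mem_sphere_norm_le j hs0 ?_ ?_
      · refine DifferentiableOn.diffContOnCl_ball (U := closedBall μ s) ?_ subset_rfl
        intro z hz
        have hz' := hball z (hclosed hz)
        have h1 : AnalyticAt ℂ (fun z => w (f z)) z := (hwa _ hz'.2).comp hz'.1
        have h2 := analyticAt_poly_comp hz'.1 (Q K)
        exact (h1.sub h2).differentiableAt.differentiableWithinAt
      · intro z hz
        have hz' := hball z (hclosed (sphere_subset_closedBall hz))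
        rw [hQeval]
        exact norm_sub_partial_le hR hw hz'.2 K
    have hlim : Tendsto (fun K => (j.factorial : ℝ) * (∑' k, ‖tc w (k + K)‖) / s ^ j) atTop (𝓝 0) := by
      have := (tendsto_sum_nat_add (fun k => ‖tc w k‖)).const_mul (j.factorial : ℝ)
      simpa using this.div_const (s ^ j)
    exact squeeze_zero_norm hbound hlim
  have hlim := tendsto_aeval_zero_of_jets A g hjets
  have hent : Tendsto (fun K => Polynomial.aeval A (g K) a b) atTop (𝓝 0) := by
    have h1 := (tendsto_pi_nhds.1 ((tendsto_pi_nhds.1 hlim) a)) b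
    simpa using h1
  have hpartial : ∀ K, ∑ k ∈ Finset.range K, tc w k * (T ^ k) a b
      = Polynomial.aeval A q a b - Polynomial.aeval A (g K) a b := by
    intro K
    have h1 : Polynomial.aeval A ((Q K).comp p) = ∑ k ∈ Finset.range K, tc w k • T ^ k := by
      rw [Polynomial.aeval_comp]
      simp only [Q, map_sum, Polynomial.aeval_monomial]
      refine Finset.sum_congr rfl fun k _ => ?_
      rw [Algebra.algebraMap_eq_smul_one, smul_mul_assoc, one_mul]
    have h2 : Polynomial.aeval A (g K) = Polynomial.aeval A q - Polynomial.aeval A ((Q K).comp p) := by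
      simp [g]
    rw [h2, h1, Matrix.sub_apply, sub_sub_cancel, Matrix.sum_apply]
    simp
  have hlim2 : Tendsto (fun K => ∑ k ∈ Finset.range K, tc w k * (T ^ k) a b) atTop
      (𝓝 (Polynomial.aeval A q a b)) := by
    simp only [hpartial]
    simpa using tendsto_const_nhds.sub hent
  have huniq := tendsto_nhds_unique hsum.hasSum.tendsto_sum_nat hlim2
  rw [← huniq]
  exact hsum.hasSum

end Crest.Agent.CrouzeixPoisson
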