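import Crest.Agent.CrouzeixPoisson.Poisson
import Crest.Prelude.Def_NumRangeMetric

/-!
# Spectral facts: summable powers from the spectral radius, conjugation, eigenvalues in the
numerical range.
-/

set_option autoImplicit false

open Complex Filter Topology Set Metric Matrix Polynomial
open scoped ComplexConjugate Real ComplexOrder ENNReal NNReal

namespace Crest.Agent.CrouzeixPoisson

open Crest.AnalysisR.NumRange

variable {n : ℕ}

section Gelfand

attribute [local instance] Matrix.linftyOpNormedRing Matrix.linftyOpNormedAlgebra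

lemma powB_le_norm (A : Matrix (Fin n) (Fin n) ℂ) (k : ℕ) : powB A k ≤ n * ‖A ^ k‖ := by
  unfold powB
  have h : ∀ a, ∑ b, ‖(A ^ k) a b‖ ≤ ‖A ^ k‖ := by
    intro a
    have h1 := Finset.le_sup (f := fun i => ∑ j, ‖(A ^ k) i j‖₊) (Finset.mem_univ a)
    have h2 : (∑ j, ‖(A ^ k) a j‖₊) ≤ ‖A ^ k‖₊ := by
      rw [Matrix.linfty_opNNNorm_def]
      exact h1
    have h3 : ((∑ j, ‖(A ^ k) a j‖₊ : ℝ≥0) : ℝ) ≤ (‖A ^ k‖₊ : ℝ) := by exact_mod_cast h2
    simpa using h3
  calc ∑ a, ∑ b, ‖(A ^ k) a b‖ ≤ ∑ _a : Fin n, ‖A ^ k‖ := Finset.sum_le_sum fun a _ => h a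
    _ = n * ‖A ^ k‖ := by simp

/-- Spectrum in the open unit disc implies summable powers. -/
lemma summable_powB_of_spectrum (hn : 1 ≤ n) (T : Matrix (Fin n) (Fin n) ℂ)
    (h : ∀ μ ∈ spectrum ℂ T, ‖μ‖ < 1) : Summable (powB T) := by
  have : Nonempty (Fin n) := ⟨⟨0, hn⟩⟩
  have : CompleteSpace (Matrix (Fin n) (Fin n) ℂ) := FiniteDimensional.complete ℂ _
  obtain ⟨z, hz, hzρ⟩ := spectrum.exists_nnnorm_eq_spectralRadius (A := Matrix (Fin n) (Fin n) ℂ) T
  have hz1 := h z hz
  set r : ℝ := (‖z‖ + 1) / 2 with hr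
  have hr0 : 0 < r := by
    have := norm_nonneg z
    positivity
  have hr1 : r < 1 := by rw [hr]; linarith
  have hzr : ‖z‖ < r := by rw [hr]; linarith
  have hρ : spectralRadius ℂ T < ENNReal.ofReal r := by
    rw [← hzρ]
    have : (‖z‖₊ : ℝ≥0∞) = ENNReal.ofReal ‖z‖ := by
      rw [ofReal_norm]
      rfl
    rw [this]
    exact (ENNReal.ofReal_lt_ofReal_iff hr0).2 hzr
  have hlim := spectrum.pow_norm_pow_one_div_tendsto_nhds_spectralRadius
    (A := Matrix (Fin n) (Fin n) ℂ) T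
  have hev : ∀ᶠ k : ℕ in atTop, ‖T ^ k‖ ≤ r ^ k := by
    filter_upwards [hlim.eventually (gt_mem_nhds hρ), eventually_ge_atTop 1] with k hk hk1
    have h1 : ‖T ^ k‖ ^ (1 / k : ℝ) < r := (ENNReal.ofReal_lt_ofReal_iff hr0).1 hk
    have hk0 : k ≠ 0 := by omega
    have h2 : (‖T ^ k‖ ^ (1 / k : ℝ)) ^ k = ‖T ^ k‖ := by
      rw [one_div]
      exact Real.rpow_inv_natCast_pow (norm_nonneg _) hk0
    rw [← h2]
    exact pow_le_pow_left₀ (Real.rpow_nonneg (norm_nonneg _) _) h1.le k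
  have hgeo : Summable fun k : ℕ => (n : ℝ) * r ^ k :=
    (summable_geometric_of_lt_one hr0.le hr1).mul_left _
  refine Summable.of_norm_bounded_eventually_nat hgeo ?_
  filter_upwards [hev] with k hk
  have h0 : 0 ≤ powB T k := Finset.sum_nonneg fun _ _ => Finset.sum_nonneg fun _ _ => norm_nonneg _
  rw [Real.norm_of_nonneg h0]
  exact (powB_le_norm T k).trans (mul_le_mul_of_nonneg_left hk (Nat.cast_nonneg _))

end Gelfand

/-- Polynomials and conjugation. -/
lemma aeval_conj (S S' A : Matrix (Fin n) (Fin n) ℂ) (h1 : S' * S = 1) (h2 : S * S' = 1)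
    (r : ℂ[X]) : Polynomial.aeval (S * A * S') r = S * Polynomial.aeval A r * S' := by
  have hp : ∀ k : ℕ, (S * A * S') ^ k = S * A ^ k * S' := by
    intro k
    induction k with
    | zero => simp [h2]
    | succ k ih =>
      rw [pow_succ, ih, pow_succ]
      calc S * A ^ k * S' * (S * A * S') = S * A ^ k * (S' * S) * A * S' := by
            simp only [Matrix.mul_assoc]
        _ = S * (A ^ k * A) * S' := by
            rw [h1]
            simp only [Matrix.mul_assoc, Matrix.mul_one]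
  rw [Polynomial.aeval_eq_sum_range, Polynomial.aeval_eq_sum_range, Finset.mul_sum, Finset.sum_mul]
  refine Finset.sum_congr rfl fun k _ => ?_
  rw [hp k, Matrix.mul_smul, Matrix.smul_mul]

/-- Eigenvalues lie in the numerical range. -/
lemma spectrum_subset_numRange (A : Matrix (Fin n) (Fin n) ℂ) : spectrum ℂ A ⊆ numRange A := by
  intro μ hμ
  rw [← Matrix.spectrum_toLpLin (p := 2)] at hμ
  have hev := Module.End.hasEigenvalue_iff_mem_spectrum.2 hμ
  obtain ⟨x, hx⟩ := hev.exists_hasEigenvector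
  have hx0 : x ≠ 0 := hx.2
  have hxn : ‖x‖ ≠ 0 := norm_ne_zero_iff.2 hx0
  refine ⟨((‖x‖ : ℂ)⁻¹) • x, ?_, ?_⟩
  · rw [norm_smul]
    simp [hxn]
  · have h1 : Matrix.toEuclideanLin A x = μ • x := hx.apply_eq_smul
    rw [map_smul, h1, inner_smul_left, inner_smul_right, inner_smul_right, inner_self_eq_norm_sq_to_K]
    have h2 : ((‖x‖ : ℂ)) ≠ 0 := by exact_mod_cast hxn
    simp
    field_simp

end Crest.Agent.CrouzeixPoisson
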