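import Mathlib

/-!
# Norm bounds for Kronecker products and for integrals of `Λ ⊗ V`.
-/

set_option autoImplicit false

open Complex Filter Topology Set Metric Matrix
open scoped ComplexConjugate Real ComplexOrder Kronecker

namespace Crest.Agent.CrouzeixPoisson

variable {n m : ℕ}

/-- Squared `ℓ²` norm of a function. -/
noncomputable def nsq {ι : Type*} [Fintype ι] (v : ι → ℂ) : ℝ := ∑ i, ‖v i‖ ^ 2

lemma nsq_nonneg {ι : Type*} [Fintype ι] (v : ι → ℂ) : 0 ≤ nsq v :=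
  Finset.sum_nonneg fun _ _ => by positivity

lemma nsq_prod (x : Fin n × Fin m → ℂ) :
    nsq x = ∑ d, nsq (fun a => x (a, d)) := by
  unfold nsq
  rw [Fintype.sum_prod_type_right]

lemma nsq_prod' (x : Fin n × Fin m → ℂ) :
    nsq x = ∑ a, nsq (fun d => x (a, d)) := by
  unfold nsq
  rw [Fintype.sum_prod_type]

lemma kron_one_mulVec (S : Matrix (Fin n) (Fin n) ℂ) (x : Fin n × Fin m → ℂ) (a : Fin n)
    (d : Fin m) : ((S ⊗ₖ (1 : Matrix (Fin m) (Fin m) ℂ)) *ᵥ x) (a, d)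
      = (S *ᵥ fun b => x (b, d)) a := by
  classical
  simp only [mulVec, dotProduct, Fintype.sum_prod_type, kroneckerMap_apply, Matrix.one_apply]
  refine Finset.sum_congr rfl fun b _ => ?_
  rw [Finset.sum_eq_single d]
  · simp
  · intro c _ hc
    simp [Ne.symm hc]
  · simp

lemma one_kron_mulVec (V : Matrix (Fin m) (Fin m) ℂ) (x : Fin n × Fin m → ℂ) (a : Fin n)
    (d : Fin m) : (((1 : Matrix (Fin n) (Fin n) ℂ) ⊗ₖ V) *ᵥ x) (a, d)
      = (V *ᵥ fun c => x (a, c)) d := by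
  classical
  simp only [mulVec, dotProduct, Fintype.sum_prod_type, kroneckerMap_apply, Matrix.one_apply]
  rw [Finset.sum_eq_single a]
  · simp
  · intro c _ hc
    simp [Ne.symm hc]
  · simp

lemma nsq_kron_one_le {S : Matrix (Fin n) (Fin n) ℂ} {c : ℝ}
    (h : ∀ z : Fin n → ℂ, nsq (S *ᵥ z) ≤ c * nsq z) (x : Fin n × Fin m → ℂ) :
    nsq ((S ⊗ₖ (1 : Matrix (Fin m) (Fin m) ℂ)) *ᵥ x) ≤ c * nsq x := by
  rw [nsq_prod, nsq_prod x, Finset.mul_sum]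
  refine Finset.sum_le_sum fun d _ => ?_
  simpa only [kron_one_mulVec] using h (fun b => x (b, d))

lemma nsq_one_kron_le {V : Matrix (Fin m) (Fin m) ℂ} {c : ℝ}
    (h : ∀ z : Fin m → ℂ, nsq (V *ᵥ z) ≤ c * nsq z) (x : Fin n × Fin m → ℂ) :
    nsq (((1 : Matrix (Fin n) (Fin n) ℂ) ⊗ₖ V) *ᵥ x) ≤ c * nsq x := by
  rw [nsq_prod', nsq_prod' x, Finset.mul_sum]
  refine Finset.sum_le_sum fun a _ => ?_
  simpa only [one_kron_mulVec] using h (fun c => x (a, c))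

/-- Passing from the operator norm to `nsq`. -/
lemma nsq_mulVec_le_of_norm {ι : Type*} [Fintype ι] [DecidableEq ι] {V : Matrix ι ι ℂ} {M : ℝ}
    (h : ‖Matrix.toEuclideanCLM (n := ι) (𝕜 := ℂ) V‖ ≤ M) (z : ι → ℂ) :
    nsq (V *ᵥ z) ≤ M ^ 2 * nsq z := by
  have h1 := (Matrix.toEuclideanCLM (n := ι) (𝕜 := ℂ) V).le_opNorm (WithLp.toLp 2 z)
  have h2 : ‖Matrix.toEuclideanCLM (n := ι) (𝕜 := ℂ) V (WithLp.toLp 2 z)‖ ^ 2 = nsq (V *ᵥ z) := by
    rw [Matrix.toEuclideanCLM_toLp, EuclideanSpace.norm_sq_eq]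
    rfl
  have h3 : ‖(WithLp.toLp 2 z : EuclideanSpace ℂ ι)‖ ^ 2 = nsq z := by
    rw [EuclideanSpace.norm_sq_eq]
    rfl
  rw [← h2, ← h3]
  have h4 : ‖Matrix.toEuclideanCLM (n := ι) (𝕜 := ℂ) V (WithLp.toLp 2 z)‖
      ≤ M * ‖(WithLp.toLp 2 z : EuclideanSpace ℂ ι)‖ :=
    h1.trans (mul_le_mul_of_nonneg_right h (norm_nonneg _))
  rw [← mul_pow]
  exact pow_le_pow_left₀ (norm_nonneg _) h4 2

/-- Passing from `nsq` to the operator norm. -/
lemma norm_le_of_nsq {ι : Type*} [Fintype ι] [DecidableEq ι] {V : Matrix ι ι ℂ} {c : ℝ} (hc : 0 ≤ c)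
    (h : ∀ z : ι → ℂ, nsq (V *ᵥ z) ≤ c ^ 2 * nsq z) :
    ‖Matrix.toEuclideanCLM (n := ι) (𝕜 := ℂ) V‖ ≤ c := by
  refine ContinuousLinearMap.opNorm_le_bound _ hc fun x => ?_
  have h2 : ‖Matrix.toEuclideanCLM (n := ι) (𝕜 := ℂ) V x‖ ^ 2 = nsq (V *ᵥ (WithLp.ofLp x)) := by
    rw [EuclideanSpace.norm_sq_eq]
    rfl
  have h3 : ‖x‖ ^ 2 = nsq (WithLp.ofLp x) := by
    rw [EuclideanSpace.norm_sq_eq]
    rfl
  have h4 := h (WithLp.ofLp x)
  rw [← h2, ← h3, ← mul_pow] at h4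
  exact (pow_le_pow_iff_left₀ (norm_nonneg _) (by positivity) two_ne_zero).1 h4

lemma exists_sqrt_of_posSemidef {ι : Type*} [Fintype ι] [DecidableEq ι] {Λ : Matrix ι ι ℂ}
    (hΛ : Λ.PosSemidef) : ∃ L : Matrix ι ι ℂ, Λ = Lᴴ * L := by
  open scoped MatrixOrder in
  obtain ⟨a, ha⟩ := CStarAlgebra.nonneg_iff_eq_star_mul_self.mp hΛ.nonneg
  exact ⟨a, by simpa [star_eq_conjTranspose] using ha⟩

/-- Elementary Cauchy–Schwarz. -/
lemma norm_dot_le {ι : Type*} [Fintype ι] (y w : ι → ℂ) {t : ℝ} (ht : 0 < t) :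
    ‖star y ⬝ᵥ w‖ ≤ (t * nsq y + t⁻¹ * nsq w) / 2 := by
  unfold dotProduct nsq
  calc ‖∑ i, star y i * w i‖ ≤ ∑ i, ‖star y i * w i‖ := norm_sum_le _ _
    _ ≤ ∑ i, (t * ‖y i‖ ^ 2 + t⁻¹ * ‖w i‖ ^ 2) / 2 := by
        refine Finset.sum_le_sum fun i _ => ?_
        rw [norm_mul]
        simp only [Pi.star_apply, norm_star]
        have h1 : 0 ≤ (t * ‖y i‖ - ‖w i‖) ^ 2 := sq_nonneg _
        have h2 : ‖y i‖ * ‖w i‖ = t⁻¹ * (t * ‖y i‖ * ‖w i‖) := by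
          field_simp
        rw [h2]
        have h3 : t⁻¹ * (t * ‖y i‖ * ‖w i‖) = t⁻¹ * ((t * ‖y i‖) ^ 2 + ‖w i‖ ^ 2 - (t * ‖y i‖ - ‖w i‖) ^ 2) / 2 := by
          ring
        rw [h3]
        have h4 : t⁻¹ * ((t * ‖y i‖) ^ 2 + ‖w i‖ ^ 2) = t * ‖y i‖ ^ 2 + t⁻¹ * ‖w i‖ ^ 2 := by
          field_simp
        have h5 : 0 ≤ t⁻¹ * (t * ‖y i‖ - ‖w i‖) ^ 2 := by positivity
        nlinarith
    _ = _ := by
        rw [← Finset.sum_div, Finset.sum_add_distrib, ← Finset.mul_sum, ← Finset.mul_sum]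

/-- The pointwise form bound. -/
lemma norm_form_le {Λ : Matrix (Fin n) (Fin n) ℂ} {V : Matrix (Fin m) (Fin m) ℂ} {M : ℝ}
    (hM : 0 ≤ M) (hV : ‖Matrix.toEuclideanCLM (n := Fin m) (𝕜 := ℂ) V‖ ≤ M)
    (hΛ : Λ.PosSemidef) (x y : Fin n × Fin m → ℂ) :
    ‖star y ⬝ᵥ ((Λ ⊗ₖ V) *ᵥ x)‖ ≤
      M / 2 * ((star y ⬝ᵥ ((Λ ⊗ₖ (1 : Matrix (Fin m) (Fin m) ℂ)) *ᵥ y)).re +
        (star x ⬝ᵥ ((Λ ⊗ₖ (1 : Matrix (Fin m) (Fin m) ℂ)) *ᵥ x)).re) := by
  classical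
  obtain ⟨L, rfl⟩ := exists_sqrt_of_posSemidef hΛ
  -- the vectors `X = (L ⊗ 1) x`, `Y = (L ⊗ 1) y`
  set K : Matrix (Fin n × Fin m) (Fin n × Fin m) ℂ := L ⊗ₖ (1 : Matrix (Fin m) (Fin m) ℂ) with hK
  have hKH : Kᴴ = Lᴴ ⊗ₖ (1 : Matrix (Fin m) (Fin m) ℂ) := by
    rw [hK, conjTranspose_kronecker, conjTranspose_one]
  have e1 : (Lᴴ * L) ⊗ₖ V = Kᴴ * (((1 : Matrix (Fin n) (Fin n) ℂ) ⊗ₖ V) * K) := by
    rw [hKH, hK, ← mul_kronecker_mul, ← mul_kronecker_mul]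
    simp
  have e2 : (Lᴴ * L) ⊗ₖ (1 : Matrix (Fin m) (Fin m) ℂ) = Kᴴ * K := by
    rw [hKH, hK, ← mul_kronecker_mul]
    simp
  have e3 : ∀ u v : Fin n × Fin m → ℂ, star u ⬝ᵥ ((Kᴴ) *ᵥ v) = star (K *ᵥ u) ⬝ᵥ v := by
    intro u v
    rw [star_mulVec, dotProduct_mulVec]
  have e4 : ∀ u : Fin n × Fin m → ℂ, (star u ⬝ᵥ ((Kᴴ * K) *ᵥ u)).re = nsq (K *ᵥ u) := by
    intro u
    rw [← mulVec_mulVec, e3]
    simp only [dotProduct, Pi.star_apply, nsq]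
    rw [Complex.re_sum]
    refine Finset.sum_congr rfl fun i _ => ?_
    have := Complex.normSq_eq_norm_sq ((K *ᵥ u) i)
    rw [← this, Complex.normSq_apply]
    simp [Complex.mul_re]
  rw [e1, e2, e4, e4, ← mulVec_mulVec, e3, ← mulVec_mulVec]
  set X := K *ᵥ x with hX
  set Y := K *ᵥ y with hY
  set W := ((1 : Matrix (Fin n) (Fin n) ℂ) ⊗ₖ V) *ᵥ X with hW
  have hWle : nsq W ≤ M ^ 2 * nsq X :=
    nsq_one_kron_le (fun z => nsq_mulVec_le_of_norm hV z) X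
  rcases hM.eq_or_lt with h0 | hpos
  · -- `M = 0`
    subst h0
    have hW0 : nsq W ≤ 0 := by simpa using hWle
    have hz : ∀ i, W i = 0 := by
      intro i
      have h1 : ‖W i‖ ^ 2 ≤ nsq W :=
        Finset.single_le_sum (f := fun i => ‖W i‖ ^ 2) (fun _ _ => by positivity) (Finset.mem_univ i)
      have h2 : ‖W i‖ ^ 2 ≤ 0 := h1.trans hW0
      have h3 : ‖W i‖ = 0 := by
        have := sq_nonneg ‖W i‖
        nlinarith [norm_nonneg (W i)]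
      simpa using h3
    have : star Y ⬝ᵥ W = 0 := by simp [dotProduct, hz]
    rw [this]
    simp
  · have h1 := norm_dot_le Y W hpos
    have h2 : M⁻¹ * nsq W ≤ M * nsq X := by
      have : M⁻¹ * nsq W ≤ M⁻¹ * (M ^ 2 * nsq X) :=
        mul_le_mul_of_nonneg_left hWle (by positivity)
      calc M⁻¹ * nsq W ≤ M⁻¹ * (M ^ 2 * nsq X) := this
        _ = M * nsq X := by field_simp
    calc ‖star Y ⬝ᵥ W‖ ≤ (M * nsq Y + M⁻¹ * nsq W) / 2 := h1
      _ ≤ (M * nsq Y + M * nsq X) / 2 := by linarith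
      _ = M / 2 * (nsq Y + nsq X) := by ring

lemma star_dot_self {ι : Type*} [Fintype ι] (w : ι → ℂ) : star w ⬝ᵥ w = (nsq w : ℂ) := by
  unfold dotProduct nsq
  push_cast
  refine Finset.sum_congr rfl fun i _ => ?_
  simp only [Pi.star_apply]
  rw [Complex.star_def, mul_comm, Complex.mul_conj, Complex.normSq_eq_norm_sq]
  push_cast
  rfl

lemma continuous_kron_one {Λ : ℝ → Matrix (Fin n) (Fin n) ℂ} (hΛc : Continuous Λ) :
    Continuous fun θ => Λ θ ⊗ₖ (1 : Matrix (Fin m) (Fin m) ℂ) := by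
  refine continuous_matrix fun i j => ?_
  simp only [kroneckerMap_apply]
  have h1 : Continuous fun θ => Λ θ i.1 j.1 :=
    (continuous_apply j.1).comp ((continuous_apply i.1).comp hΛc)
  exact h1.mul continuous_const

/-- Conjugating a block matrix by Kronecker products. -/
lemma kron_conj_apply (P Q : Matrix (Fin n) (Fin n) ℂ)
    (W : Fin m → Fin m → Matrix (Fin n) (Fin n) ℂ) :
    (P ⊗ₖ (1 : Matrix (Fin m) (Fin m) ℂ)) *
        (Matrix.of fun i j : Fin n × Fin m => W i.2 j.2 i.1 j.1) *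
        (Q ⊗ₖ (1 : Matrix (Fin m) (Fin m) ℂ)) =
      Matrix.of fun i j : Fin n × Fin m => (P * W i.2 j.2 * Q) i.1 j.1 := by
  classical
  ext ⟨i1, i2⟩ ⟨j1, j2⟩
  simp only [Matrix.mul_apply, Fintype.sum_prod_type, kroneckerMap_apply, Matrix.one_apply,
    Matrix.of_apply]
  refine Finset.sum_congr rfl fun l _ => ?_
  rw [Finset.sum_eq_single j2]
  · simp only [if_true, mul_one, Finset.sum_mul]
    refine Finset.sum_congr rfl fun k _ => ?_
    rw [Finset.sum_eq_single i2]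
    · simp
    · intro c _ hc
      simp [Ne.symm hc]
    · simp
  · intro c _ hc
    simp [hc]
  · simp

/-- Integrating a quadratic form entrywise. -/
lemma integral_form_kron {Φ : ℝ → Matrix (Fin n) (Fin n) ℂ} {Ψ : ℝ → Matrix (Fin m) (Fin m) ℂ}
    (hΦ : Continuous Φ) (hΨ : Continuous Ψ) (x y : Fin n × Fin m → ℂ) :
    ∫ θ in (0 : ℝ)..2 * π, star y ⬝ᵥ ((Φ θ ⊗ₖ Ψ θ) *ᵥ x) =
      star y ⬝ᵥ ((Matrix.of fun i j : Fin n × Fin m =>
        ∫ θ in (0 : ℝ)..2 * π, Φ θ i.1 j.1 * Ψ θ i.2 j.2) *ᵥ x) := by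
  have hent : ∀ i j : Fin n × Fin m, Continuous fun θ => Φ θ i.1 j.1 * Ψ θ i.2 j.2 := by
    intro i j
    have h1 : Continuous fun θ => Φ θ i.1 j.1 :=
      (continuous_apply j.1).comp ((continuous_apply i.1).comp hΦ)
    have h2 : Continuous fun θ => Ψ θ i.2 j.2 :=
      (continuous_apply j.2).comp ((continuous_apply i.2).comp hΨ)
    exact h1.mul h2
  simp only [dotProduct, mulVec, kroneckerMap_apply, Matrix.of_apply]
  rw [intervalIntegral.integral_finsetSum]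
  · refine Finset.sum_congr rfl fun i _ => ?_
    rw [intervalIntegral.integral_const_mul, intervalIntegral.integral_finsetSum]
    · congr 1
      refine Finset.sum_congr rfl fun j _ => ?_
      rw [intervalIntegral.integral_mul_const]
    · intro j _
      exact ((hent i j).mul continuous_const).intervalIntegrable _ _
  · intro i _
    apply Continuous.intervalIntegrable
    refine continuous_const.mul (continuous_finsetSum _ fun j _ => ?_)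
    exact (hent i j).mul continuous_const

/-- The integrated bound. -/
theorem norm_integral_kron_le {Λ : ℝ → Matrix (Fin n) (Fin n) ℂ}
    {V : ℝ → Matrix (Fin m) (Fin m) ℂ} {M : ℝ} (hM : 0 ≤ M)
    (hΛc : Continuous Λ) (hVc : Continuous V) (hΛ : ∀ θ, (Λ θ).PosSemidef)
    (hV : ∀ θ, ‖Matrix.toEuclideanCLM (n := Fin m) (𝕜 := ℂ) (V θ)‖ ≤ M)
    (hmean : ∀ a b, (2 * π : ℂ)⁻¹ * (∫ θ in (0 : ℝ)..2 * π, Λ θ a b)
      = (1 : Matrix (Fin n) (Fin n) ℂ) a b)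
    (G : Matrix (Fin n × Fin m) (Fin n × Fin m) ℂ)
    (hG : ∀ i j, G i j = (2 * π : ℂ)⁻¹ * ∫ θ in (0 : ℝ)..2 * π, Λ θ i.1 j.1 * V θ i.2 j.2) :
    ‖Matrix.toEuclideanCLM (n := Fin n × Fin m) (𝕜 := ℂ) G‖ ≤ M := by
  classical
  have hpi := Real.pi_pos
  have h2pi : (2 * π : ℂ) ≠ 0 := by simp [Real.pi_ne_zero]
  -- the quadratic forms
  have hq : ∀ x : Fin n × Fin m → ℂ,
      ∫ θ in (0 : ℝ)..2 * π, (star x ⬝ᵥ ((Λ θ ⊗ₖ (1 : Matrix (Fin m) (Fin m) ℂ)) *ᵥ x))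
        = (2 * π : ℂ) * (nsq x : ℂ) := by
    intro x
    have h1 := integral_form_kron hΛc (continuous_const (y := (1 : Matrix (Fin m) (Fin m) ℂ))) x x
    rw [h1]
    have h2 : (Matrix.of fun i j : Fin n × Fin m =>
        ∫ θ in (0 : ℝ)..2 * π, Λ θ i.1 j.1 * (1 : Matrix (Fin m) (Fin m) ℂ) i.2 j.2)
        = (2 * π : ℂ) • (1 : Matrix (Fin n × Fin m) (Fin n × Fin m) ℂ) := by
      ext i j
      simp only [Matrix.of_apply, Matrix.smul_apply, smul_eq_mul]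
      rw [intervalIntegral.integral_mul_const]
      have h3 : ∫ θ in (0 : ℝ)..2 * π, Λ θ i.1 j.1
          = (2 * π : ℂ) * (1 : Matrix (Fin n) (Fin n) ℂ) i.1 j.1 := by
        rw [← hmean i.1 j.1]
        field_simp
      rw [h3, mul_assoc]
      congr 1
      rw [Matrix.one_apply, Matrix.one_apply, Matrix.one_apply]
      by_cases h4 : i.1 = j.1 <;> by_cases h5 : i.2 = j.2 <;> simp [h4, h5, Prod.ext_iff]
    rw [h2, Matrix.smul_mulVec, one_mulVec, dotProduct_smul, smul_eq_mul, star_dot_self]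
  have hqre : ∀ x : Fin n × Fin m → ℂ,
      ∫ θ in (0 : ℝ)..2 * π, (star x ⬝ᵥ ((Λ θ ⊗ₖ (1 : Matrix (Fin m) (Fin m) ℂ)) *ᵥ x)).re
        = 2 * π * nsq x := by
    intro x
    have h1 : ∫ θ in (0 : ℝ)..2 * π, (star x ⬝ᵥ ((Λ θ ⊗ₖ (1 : Matrix (Fin m) (Fin m) ℂ)) *ᵥ x)).re
        = (∫ θ in (0 : ℝ)..2 * π, (star x ⬝ᵥ ((Λ θ ⊗ₖ (1 : Matrix (Fin m) (Fin m) ℂ)) *ᵥ x))).re := by
      have := (Complex.reCLM.intervalIntegral_comp_comm
        (f := fun θ => star x ⬝ᵥ ((Λ θ ⊗ₖ (1 : Matrix (Fin m) (Fin m) ℂ)) *ᵥ x))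
        (a := 0) (b := 2 * π) (μ := MeasureTheory.volume) ?_)
      · simpa using this
      · apply Continuous.intervalIntegrable
        have hc : Continuous fun θ => Λ θ ⊗ₖ (1 : Matrix (Fin m) (Fin m) ℂ) :=
          continuous_kron_one hΛc
        exact continuous_const.dotProduct (hc.matrix_mulVec continuous_const)
    rw [h1, hq]
    have : ((2 * π : ℂ) * (nsq x : ℂ)) = ((2 * π * nsq x : ℝ) : ℂ) := by push_cast; ring
    rw [this, Complex.ofReal_re]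
  have hcq : ∀ x : Fin n × Fin m → ℂ, Continuous fun θ =>
      (star x ⬝ᵥ ((Λ θ ⊗ₖ (1 : Matrix (Fin m) (Fin m) ℂ)) *ᵥ x)).re := by
    intro x
    have hc : Continuous fun θ => Λ θ ⊗ₖ (1 : Matrix (Fin m) (Fin m) ℂ) :=
      continuous_kron_one hΛc
    exact Complex.continuous_re.comp (continuous_const.dotProduct (hc.matrix_mulVec continuous_const))
  -- the form of `G`
  have hform : ∀ x y : Fin n × Fin m → ℂ,
      ‖star y ⬝ᵥ (G *ᵥ x)‖ ≤ M / 2 * (nsq y + nsq x) := by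
    intro x y
    have h1 := integral_form_kron hΛc hVc x y
    have hG' : G = (2 * π : ℂ)⁻¹ • (Matrix.of fun i j : Fin n × Fin m =>
        ∫ θ in (0 : ℝ)..2 * π, Λ θ i.1 j.1 * V θ i.2 j.2) := by
      ext i j
      simp [hG]
    rw [hG', Matrix.smul_mulVec, dotProduct_smul, ← h1, smul_eq_mul, norm_mul]
    have h2 : ‖∫ θ in (0 : ℝ)..2 * π, star y ⬝ᵥ ((Λ θ ⊗ₖ V θ) *ᵥ x)‖ ≤
        ∫ θ in (0 : ℝ)..2 * π, M / 2 *
          ((star y ⬝ᵥ ((Λ θ ⊗ₖ (1 : Matrix (Fin m) (Fin m) ℂ)) *ᵥ y)).re +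
            (star x ⬝ᵥ ((Λ θ ⊗ₖ (1 : Matrix (Fin m) (Fin m) ℂ)) *ᵥ x)).re) := by
      refine intervalIntegral.norm_integral_le_of_norm_le (by positivity)
        (Filter.Eventually.of_forall fun θ _ => norm_form_le hM (hV θ) (hΛ θ) x y) ?_
      apply Continuous.intervalIntegrable
      exact continuous_const.mul ((hcq y).add (hcq x))
    have h3 : ∫ θ in (0 : ℝ)..2 * π, M / 2 *
          ((star y ⬝ᵥ ((Λ θ ⊗ₖ (1 : Matrix (Fin m) (Fin m) ℂ)) *ᵥ y)).re +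
            (star x ⬝ᵥ ((Λ θ ⊗ₖ (1 : Matrix (Fin m) (Fin m) ℂ)) *ᵥ x)).re)
        = M / 2 * (2 * π * nsq y + 2 * π * nsq x) := by
      rw [intervalIntegral.integral_const_mul, intervalIntegral.integral_add
        ((hcq y).intervalIntegrable _ _) ((hcq x).intervalIntegrable _ _), hqre, hqre]
    rw [h3] at h2
    have h4 : ‖((2 * π : ℂ)⁻¹)‖ = (2 * π)⁻¹ := by
      rw [norm_inv]
      congr 1
      simp [abs_of_pos hpi]
    rw [h4]
    calc (2 * π)⁻¹ * ‖∫ θ in (0 : ℝ)..2 * π, star y ⬝ᵥ ((Λ θ ⊗ₖ V θ) *ᵥ x)‖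
        ≤ (2 * π)⁻¹ * (M / 2 * (2 * π * nsq y + 2 * π * nsq x)) :=
          mul_le_mul_of_nonneg_left h2 (by positivity)
      _ = M / 2 * (nsq y + nsq x) := by
          field_simp
  -- conclude
  refine norm_le_of_nsq hM fun z => ?_
  set W := G *ᵥ z with hW
  have hscale : ∀ s : ℝ, 0 < s → s * nsq W ≤ M / 2 * (s ^ 2 * nsq W + nsq z) := by
    intro s hs
    have h1 := hform z ((s : ℂ) • W)
    rw [← hW] at h1
    have h2 : star ((s : ℂ) • W) ⬝ᵥ W = (s : ℂ) * (nsq W : ℂ) := by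
      rw [star_smul, smul_dotProduct, star_dot_self]
      simp
    have h3 : nsq ((s : ℂ) • W) = s ^ 2 * nsq W := by
      unfold nsq
      rw [Finset.mul_sum]
      refine Finset.sum_congr rfl fun i _ => ?_
      simp [mul_pow, abs_of_pos hs]
    rw [h2, h3] at h1
    have h4 : ‖(s : ℂ) * (nsq W : ℂ)‖ = s * nsq W := by
      rw [norm_mul]
      simp [abs_of_pos hs, abs_of_nonneg (nsq_nonneg W)]
    rwa [h4] at h1
  rcases hM.eq_or_lt with h0 | hpos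
  · subst h0
    have := hscale 1 one_pos
    simpa using this
  · have h1 := hscale M⁻¹ (by positivity)
    have h2 : M⁻¹ * nsq W ≤ M / 2 * ((M⁻¹) ^ 2 * nsq W + nsq z) := h1
    have h3 : M / 2 * ((M⁻¹) ^ 2 * nsq W + nsq z) = M⁻¹ / 2 * nsq W + M / 2 * nsq z := by
      field_simp
    rw [h3] at h2
    have h4 : M⁻¹ / 2 * nsq W ≤ M / 2 * nsq z := by
      have : M⁻¹ * nsq W = M⁻¹ / 2 * nsq W + M⁻¹ / 2 * nsq W := by ring
      linarith
    have h5 : M * (M⁻¹ / 2 * nsq W) ≤ M * (M / 2 * nsq z) :=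
      mul_le_mul_of_nonneg_left h4 hM
    have h6 : M * (M⁻¹ / 2 * nsq W) = nsq W / 2 := by
      field_simp
    have h7 : M * (M / 2 * nsq z) = M ^ 2 * nsq z / 2 := by ring
    rw [h6, h7] at h5
    linarith

end Crest.Agent.CrouzeixPoisson
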