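import Crest.Agent.CrouzeixPoisson.Jets
import Crest.Agent.CrouzeixPoisson.Spec
import Crest.Agent.CrouzeixPoisson.Curve
import Crest.Agent.CrouzeixPoisson.TensorNorm

/-!
# Assembly of the Poisson density statement.
-/

set_option autoImplicit false

open scoped ComplexOrder
open Crest.AnalysisR.NumRange
open Complex Filter Topology Set Metric Matrix
open scoped ComplexConjugate Real Kronecker

namespace Crest.Agent.CrouzeixPoisson

variable {n : ℕ}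

lemma contraction_of_metric {S Si T : Matrix (Fin n) (Fin n) ℂ} (hSi1 : Si * S = 1)
    (hSi2 : S * Si = 1) (hSh : Sᴴ = S) (hSih : Siᴴ = Si)
    (h : (S * S - Tᴴ * (S * S) * T).PosSemidef) :
    (1 - (S * T * Si)ᴴ * (S * T * Si)).PosSemidef := by
  have h1 := h.conjTranspose_mul_mul_same Si
  have h2 : Siᴴ * (S * S - Tᴴ * (S * S) * T) * Si = 1 - (S * T * Si)ᴴ * (S * T * Si) := by
    rw [Matrix.conjTranspose_mul, Matrix.conjTranspose_mul, hSih, hSh]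
    have e1 : Si * (S * S) * Si = 1 := by
      calc Si * (S * S) * Si = (Si * S) * (S * Si) := by simp only [Matrix.mul_assoc]
        _ = 1 := by rw [hSi1, hSi2, Matrix.one_mul]
    have e2 : Si * (Tᴴ * (S * S) * T) * Si = Si * (Tᴴ * S) * (S * T * Si) := by
      simp only [Matrix.mul_assoc]
    rw [Matrix.mul_sub, Matrix.sub_mul, e1, e2]
  rw [h2] at h1
  exact h1

/-- The density. -/
noncomputable def lamD (Tt : Matrix (Fin n) (Fin n) ℂ) (f G : ℂ → ℂ) (θ : ℝ) :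
    Matrix (Fin n) (Fin n) ℂ :=
  ((‖curveD f G θ‖ : ℝ) : ℂ) • poissonK Tt (f (G (eI θ)))

section density

variable {Ω U : Set ℂ} {f G : ℂ → ℂ} {r : ℝ} {Tt : Matrix (Fin n) (Fin n) ℂ}

lemma continuous_lamD (hs : Summable (powB Tt)) (hΩ₁ : IsOpen Ω) (hU : IsOpen U)
    (hΩU : closure Ω ⊆ U)
    (hf₁ : DifferentiableOn ℂ f U) (hf₂ : InjOn f U) (hf₃ : f '' Ω = ball 0 1)
    (hG₁ : DifferentiableOn ℂ G {t : ℂ | r < ‖t‖}) (hG₂ : InjOn G {t : ℂ | r < ‖t‖}) (hr₂ : r < 1)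
    (hG₃ : G '' {t : ℂ | 1 < ‖t‖} = (closure Ω)ᶜ) :
    Continuous (lamD Tt f G) := by
  have hom : Continuous fun θ => f (G (eI θ)) :=
    continuous_iff_continuousAt.2 fun θ =>
      (hasDerivAt_curve hU hΩU hf₁ hG₁ hG₂ hr₂ hG₃ θ).continuousAt
  have h1 := continuous_poissonK_comp hs hom
    (norm_curve_eq_one hΩ₁ hU hΩU hf₁ hf₂ hf₃ hG₁ hG₂ hr₂ hG₃)
  have h2 := continuous_curveD hU hΩU hf₁ hG₁ hG₂ hr₂ hG₃
  have h3 : Continuous fun θ => ((‖curveD f G θ‖ : ℝ) : ℂ) :=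
    Complex.continuous_ofReal.comp h2.norm
  unfold lamD
  exact continuous_matrix fun a b => (h3.mul ((continuous_apply b).comp
    ((continuous_apply a).comp h1)))

lemma periodic_lamD : Function.Periodic (lamD Tt f G) (2 * π) := by
  intro θ
  unfold lamD curveD
  rw [eI_add_two_pi]

lemma posSemidef_lamD (hs : Summable (powB Tt)) (hc : (1 - Ttᴴ * Tt).PosSemidef)
    (hΩ₁ : IsOpen Ω) (hU : IsOpen U) (hΩU : closure Ω ⊆ U)
    (hf₁ : DifferentiableOn ℂ f U) (hf₂ : InjOn f U) (hf₃ : f '' Ω = ball 0 1)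
    (hG₁ : DifferentiableOn ℂ G {t : ℂ | r < ‖t‖}) (hG₂ : InjOn G {t : ℂ | r < ‖t‖}) (hr₂ : r < 1)
    (hG₃ : G '' {t : ℂ | 1 < ‖t‖} = (closure Ω)ᶜ) (θ : ℝ) :
    (lamD Tt f G θ).PosSemidef := by
  unfold lamD
  refine (poissonK_posSemidef hs hc
    (norm_curve_eq_one hΩ₁ hU hΩU hf₁ hf₂ hf₃ hG₁ hG₂ hr₂ hG₃ θ)).smul ?_
  exact Complex.zero_le_real.2 (norm_nonneg _)

/-- Change of variables for the density. -/
lemma integral_lamD_mul (hΩ₁ : IsOpen Ω) (hU : IsOpen U) (hΩU : closure Ω ⊆ U)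
    (hf₁ : DifferentiableOn ℂ f U) (hf₂ : InjOn f U) (hf₃ : f '' Ω = ball 0 1)
    (hG₁ : DifferentiableOn ℂ G {t : ℂ | r < ‖t‖}) (hG₂ : InjOn G {t : ℂ | r < ‖t‖}) (hr₂ : r < 1)
    (hG₃ : G '' {t : ℂ | 1 < ‖t‖} = (closure Ω)ᶜ) (a b : Fin n)
    {w : ℂ → ℂ} (hF : ContinuousOn (fun z => poissonK Tt z a b * w z) (sphere 0 1)) :
    ∫ θ in (0 : ℝ)..2 * π, lamD Tt f G θ a b * w (f (G (eI θ))) =
      ∫ φ in (0 : ℝ)..2 * π, poissonK Tt (eI φ) a b * w (eI φ) := by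
  have hper : (fun θ => f (G (eI θ))) (2 * π) = (fun θ => f (G (eI θ))) 0 := by
    have := eI_add_two_pi 0
    simp only [zero_add] at this
    simp only [this]
  have h := circle_change_of_var (hasDerivAt_curve hU hΩU hf₁ hG₁ hG₂ hr₂ hG₃)
    (continuous_curveD hU hΩU hf₁ hG₁ hG₂ hr₂ hG₃)
    (norm_curve_eq_one hΩ₁ hU hΩU hf₁ hf₂ hf₃ hG₁ hG₂ hr₂ hG₃)
    (curveD_ne_zero hU hΩU hf₁ hf₂ hG₁ hG₂ hr₂ hG₃) hper
    (curve_injOn hΩU hf₂ hG₂ hr₂ hG₃) hF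
  rw [← h]
  congr 1
  funext θ
  simp only [lamD, Matrix.smul_apply, smul_eq_mul]
  ring

lemma mean_lamD (hs : Summable (powB Tt))
    (hΩ₁ : IsOpen Ω) (hU : IsOpen U) (hΩU : closure Ω ⊆ U)
    (hf₁ : DifferentiableOn ℂ f U) (hf₂ : InjOn f U) (hf₃ : f '' Ω = ball 0 1)
    (hG₁ : DifferentiableOn ℂ G {t : ℂ | r < ‖t‖}) (hG₂ : InjOn G {t : ℂ | r < ‖t‖}) (hr₂ : r < 1)
    (hG₃ : G '' {t : ℂ | 1 < ‖t‖} = (closure Ω)ᶜ) (a b : Fin n) :
    (2 * π : ℂ)⁻¹ * (∫ θ in (0 : ℝ)..2 * π, lamD Tt f G θ a b) =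
      (1 : Matrix (Fin n) (Fin n) ℂ) a b := by
  have h1 := integral_lamD_mul (Tt := Tt) (w := fun _ => 1) hΩ₁ hU hΩU hf₁ hf₂ hf₃ hG₁ hG₂ hr₂ hG₃
    a b (by simpa using continuousOn_poissonK_apply hs a b)
  simp only [mul_one] at h1
  have h2 := integral_poissonK_mul_pow hs a b 0
  simp only [pow_zero, mul_one] at h2
  rw [h1, h2]
  have h3 : (2 * π : ℂ) ≠ 0 := by simp [Real.pi_ne_zero]
  field_simp

end density

section formula

variable {Ω U V' : Set ℂ} {f G : ℂ → ℂ} {r : ℝ}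

lemma exists_inverse_data (hΩ₂ : Bornology.IsBounded Ω) (hU : IsOpen U) (hΩU : closure Ω ⊆ U)
    (hf₁ : DifferentiableOn ℂ f U) (hf₂ : InjOn f U) (hf₃ : f '' Ω = ball 0 1)
    (hV' : IsOpen V') (hΩV : closure Ω ⊆ V') :
    ∃ (finv : ℂ → ℂ) (R : ℝ), 1 < R ∧ DifferentiableOn ℂ finv (ball 0 R) ∧
      MapsTo finv (ball 0 R) (U ∩ V') ∧ ∀ z ∈ U ∩ V', finv (f z) = z := by
  have hUV : IsOpen (U ∩ V') := hU.inter hV'
  have hsub : closure Ω ⊆ U ∩ V' := subset_inter hΩU hΩV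
  obtain ⟨hopen, hd⟩ := isOpen_image_and_differentiableOn_invFunOn hUV
    (hf₁.mono inter_subset_left) (hf₂.mono inter_subset_left)
  have hcb : closedBall (0 : ℂ) 1 ⊆ f '' (U ∩ V') :=
    (closedBall_subset_image hΩ₂ hΩU hf₁ hf₃).trans (image_mono hsub)
  obtain ⟨δ, hδ, hth⟩ := (isCompact_closedBall (0 : ℂ) 1).exists_thickening_subset_open hopen hcb
  rw [thickening_closedBall hδ zero_le_one] at hth
  refine ⟨Function.invFunOn f (U ∩ V'), δ + 1, by linarith, hd.mono hth, ?_, ?_⟩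
  · intro ζ hζ
    exact Function.invFunOn_mem (hth hζ)
  · intro z hz
    exact (hf₂.mono inter_subset_left).leftInvOn_invFunOn hz

/-- The Poisson formula for a scalar function. -/
theorem poisson_formula {At : Matrix (Fin n) (Fin n) ℂ} {p q : Polynomial ℂ} {v0 : ℂ → ℂ}
    (hs : Summable (powB (Polynomial.aeval At p)))
    (hΩ₁ : IsOpen Ω) (hΩ₂ : Bornology.IsBounded Ω) (hU : IsOpen U) (hΩU : closure Ω ⊆ U)
    (hf₁ : DifferentiableOn ℂ f U) (hf₂ : InjOn f U) (hf₃ : f '' Ω = ball 0 1)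
    (hG₁ : DifferentiableOn ℂ G {t : ℂ | r < ‖t‖}) (hG₂ : InjOn G {t : ℂ | r < ‖t‖}) (hr₂ : r < 1)
    (hG₃ : G '' {t : ℂ | 1 < ‖t‖} = (closure Ω)ᶜ)
    (hspec : ∀ μ ∈ spectrum ℂ At, μ ∈ Ω)
    (hV' : IsOpen V') (hΩV : closure Ω ⊆ V') (hv0 : DifferentiableOn ℂ v0 V')
    (hp : AgreesOnSpectrum At f p) (hq : AgreesOnSpectrum At v0 q) (a b : Fin n) :
    Polynomial.aeval At q a b = (2 * π : ℂ)⁻¹ *
      ∫ θ in (0 : ℝ)..2 * π, lamD (Polynomial.aeval At p) f G θ a b * v0 (G (eI θ)) := by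
  classical
  set Tt := Polynomial.aeval At p with hTt
  obtain ⟨finv, R, hR, hfd, hfm, hfl⟩ :=
    exists_inverse_data hΩ₂ hU hΩU hf₁ hf₂ hf₃ hV' hΩV
  set w : ℂ → ℂ := fun ζ => v0 (finv ζ) with hw
  have hwd : DifferentiableOn ℂ w (ball 0 R) := by
    refine hv0.comp hfd fun ζ hζ => (hfm hζ).2
  have hwf : ∀ z ∈ U ∩ V', w (f z) = v0 z := fun z hz => by
    simp only [hw, hfl z hz]
  have hsubUV : closure Ω ⊆ U ∩ V' := subset_inter hΩU hΩV
  have hUV : IsOpen (U ∩ V') := hU.inter hV'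
  -- the power series identity
  have hsum1 : Summable fun k => tc w k * (Tt ^ k) a b := by
    refine Summable.of_norm_bounded
      (g := fun k => (∑' j, powB Tt j) * ‖tc w k‖) ((summable_norm_tc hR hwd).mul_left _) fun k => ?_
    rw [norm_mul, mul_comm]
    refine mul_le_mul_of_nonneg_right ?_ (norm_nonneg _)
    refine (entry_le_powB Tt k a b).trans ?_
    exact hs.le_tsum k fun j _ =>
      Finset.sum_nonneg fun _ _ => Finset.sum_nonneg fun _ _ => norm_nonneg _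
  have h1 : HasSum (fun k => tc w k * (Tt ^ k) a b) (Polynomial.aeval At q a b) := by
    refine hasSum_aeval_of_agrees At hR
      (fun μ hμ => (hf₁.analyticOnNhd hU) μ (hΩU (subset_closure (hspec μ hμ)))) ?_ hwd ?_ hp hq a b
      hsum1
    · intro μ hμ
      have h2 : f μ ∈ f '' Ω := mem_image_of_mem f (hspec μ hμ)
      rw [hf₃] at h2
      simpa using h2
    · intro μ hμ
      have h2 : U ∩ V' ∈ 𝓝 μ := hUV.mem_nhds (hsubUV (subset_closure (hspec μ hμ)))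
      filter_upwards [h2] with z hz
      exact (hwf z hz).symm
  have hball : ∀ φ : ℝ, eI φ ∈ ball (0 : ℂ) R := fun φ => by
    simp [norm_eI, hR]
  have h2 := hasSum_mul_pow_of_integral hs (summable_norm_tc hR hwd)
    (W := fun φ => w (eI φ)) (fun φ => hasSum_tc hwd (hball φ)) a b
  have h3 := h1.unique h2
  rw [h3]
  congr 1
  -- change of variables
  have hwc : ContinuousOn w (sphere 0 1) := hwd.continuousOn.mono fun z hz => by
    have : ‖z‖ = 1 := by simpa using hz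
    simp [this, hR]
  have h4 := integral_lamD_mul (Tt := Tt) (w := w) hΩ₁ hU hΩU hf₁ hf₂ hf₃ hG₁ hG₂ hr₂ hG₃ a b
    ((continuousOn_poissonK_apply hs a b).mul hwc)
  rw [← h4]
  congr 1
  funext θ
  rw [hwf _ (hsubUV (curve_mem_closure hG₂ hr₂ hG₃ θ))]

end formula

end Crest.Agent.CrouzeixPoisson
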