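import Mathlib

/-!
# Poisson kernel of a matrix contraction with summable powers.
-/

set_option autoImplicit false

open Complex Filter Topology Set Metric
open scoped ComplexConjugate Matrix Real ComplexOrder

namespace Crest.Agent.CrouzeixPoisson

variable {n : ℕ}

/-- `e φ = exp(iφ)`. -/
noncomputable def eI (φ : ℝ) : ℂ := cexp ((φ : ℂ) * I)

lemma norm_eI (φ : ℝ) : ‖eI φ‖ = 1 := by
  simp [eI, Complex.norm_exp_ofReal_mul_I]

lemma conj_eI (φ : ℝ) : conj (eI φ) = cexp (-(φ : ℂ) * I) := by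
  simp [eI, ← Complex.exp_conj]

lemma continuous_eI : Continuous eI := by
  unfold eI
  fun_prop

/-- Integral of a character. -/
lemma integral_char (l : ℤ) :
    ∫ φ in (0 : ℝ)..2 * π, cexp ((l : ℂ) * ((φ : ℂ) * I)) = if l = 0 then (2 * π : ℂ) else 0 := by
  by_cases hl : l = 0
  · subst hl
    simp
  · rw [if_neg hl]
    have hl' : (l : ℂ) * I ≠ 0 := by
      simp [hl]
    have h1 : (fun φ : ℝ => cexp ((l : ℂ) * ((φ : ℂ) * I))) =
        fun φ : ℝ => cexp (((l : ℂ) * I) * (φ : ℂ)) := by
      funext φ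
      congr 1
      ring
    rw [h1, integral_exp_mul_complex hl']
    have h2 : cexp ((l : ℂ) * I * ((2 * π : ℝ) : ℂ)) = 1 := by
      have := Complex.exp_int_mul_two_pi_mul_I l
      rw [← this]
      congr 1
      push_cast
      ring
    rw [h2]
    simp

lemma integral_conj_pow_mul_pow (k m : ℕ) :
    ∫ φ in (0 : ℝ)..2 * π, (conj (eI φ)) ^ k * (eI φ) ^ m = if k = m then (2 * π : ℂ) else 0 := by
  have h : (fun φ : ℝ => (conj (eI φ)) ^ k * (eI φ) ^ m) =
      fun φ : ℝ => cexp ((((m : ℤ) - (k : ℤ) : ℤ) : ℂ) * ((φ : ℂ) * I)) := by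
    funext φ
    rw [conj_eI, eI, ← Complex.exp_nat_mul, ← Complex.exp_nat_mul, ← Complex.exp_add]
    congr 1
    push_cast
    ring
  rw [h, integral_char]
  by_cases hkm : k = m
  · subst hkm
    simp
  · have : ((m : ℤ) - (k : ℤ)) ≠ 0 := by omega
    simp [hkm, this]

lemma integral_pow_mul_pow (k m : ℕ) :
    ∫ φ in (0 : ℝ)..2 * π, (eI φ) ^ k * (eI φ) ^ m =
      if k = 0 ∧ m = 0 then (2 * π : ℂ) else 0 := by
  have h : (fun φ : ℝ => (eI φ) ^ k * (eI φ) ^ m) =
      fun φ : ℝ => cexp ((((m : ℤ) + (k : ℤ) : ℤ) : ℂ) * ((φ : ℂ) * I)) := by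
    funext φ
    rw [eI, ← Complex.exp_nat_mul, ← Complex.exp_nat_mul, ← Complex.exp_add]
    congr 1
    push_cast
    ring
  rw [h, integral_char]
  by_cases hkm : k = 0 ∧ m = 0
  · obtain ⟨rfl, rfl⟩ := hkm
    simp
  · have : ((m : ℤ) + (k : ℤ)) ≠ 0 := by omega
    simp [hkm, this]

/-- Bound for the size of the powers. -/
noncomputable def powB (T : Matrix (Fin n) (Fin n) ℂ) (k : ℕ) : ℝ := ∑ a, ∑ b, ‖(T ^ k) a b‖

lemma entry_le_powB (T : Matrix (Fin n) (Fin n) ℂ) (k : ℕ) (a b : Fin n) :
    ‖(T ^ k) a b‖ ≤ powB T k := by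
  unfold powB
  calc ‖(T ^ k) a b‖ ≤ ∑ b', ‖(T ^ k) a b'‖ :=
        Finset.single_le_sum (f := fun b' => ‖(T ^ k) a b'‖) (fun _ _ => norm_nonneg _)
          (Finset.mem_univ b)
    _ ≤ ∑ a', ∑ b', ‖(T ^ k) a' b'‖ :=
        Finset.single_le_sum (f := fun a' => ∑ b', ‖(T ^ k) a' b'‖)
          (fun _ _ => Finset.sum_nonneg fun _ _ => norm_nonneg _) (Finset.mem_univ a)

/-- The resolvent series. -/
noncomputable def resS (T : Matrix (Fin n) (Fin n) ℂ) (z : ℂ) : Matrix (Fin n) (Fin n) ℂ :=
  fun a b => ∑' k : ℕ, z ^ k * (T ^ k) a b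

section
variable {T : Matrix (Fin n) (Fin n) ℂ} (hs : Summable (powB T))
include hs

lemma summable_entry {z : ℂ} (hz : ‖z‖ ≤ 1) (a b : Fin n) :
    Summable fun k : ℕ => z ^ k * (T ^ k) a b := by
  refine Summable.of_norm_bounded hs fun k => ?_
  rw [norm_mul, norm_pow]
  calc ‖z‖ ^ k * ‖(T ^ k) a b‖ ≤ 1 * ‖(T ^ k) a b‖ := by
        gcongr
        exact pow_le_one₀ (norm_nonneg _) hz
    _ ≤ powB T k := by rw [one_mul]; exact entry_le_powB T k a b

lemma hasSum_resS {z : ℂ} (hz : ‖z‖ ≤ 1) :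
    HasSum (fun k : ℕ => z ^ k • T ^ k) (resS T z) := by
  refine Pi.hasSum.2 fun a => Pi.hasSum.2 fun b => ?_
  exact (summable_entry hs hz a b).hasSum

lemma tendsto_pow_smul {z : ℂ} (hz : ‖z‖ ≤ 1) :
    Tendsto (fun K : ℕ => (z • T) ^ K) atTop (𝓝 0) := by
  have h := (hasSum_resS hs hz).summable.tendsto_atTop_zero
  refine h.congr fun k => ?_
  rw [smul_pow]

lemma one_sub_mul_resS {z : ℂ} (hz : ‖z‖ ≤ 1) : (1 - z • T) * resS T z = 1 := by
  have h1 : Tendsto (fun K : ℕ => (1 - z • T) * ∑ k ∈ Finset.range K, (z • T) ^ k) atTop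
      (𝓝 ((1 - z • T) * resS T z)) := by
    refine Tendsto.const_mul _ ?_
    have := (hasSum_resS hs hz).tendsto_sum_nat
    refine this.congr fun K => Finset.sum_congr rfl fun k _ => ?_
    rw [smul_pow]
  have h2 : Tendsto (fun K : ℕ => (1 - z • T) * ∑ k ∈ Finset.range K, (z • T) ^ k) atTop
      (𝓝 (1 - 0)) := by
    refine (tendsto_const_nhds.sub (tendsto_pow_smul hs hz)).congr fun K => ?_
    rw [mul_neg_geom_sum]
  rw [sub_zero] at h2
  exact tendsto_nhds_unique h1 h2

lemma resS_mul_one_sub {z : ℂ} (hz : ‖z‖ ≤ 1) : resS T z * (1 - z • T) = 1 := by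
  have h1 : Tendsto (fun K : ℕ => (∑ k ∈ Finset.range K, (z • T) ^ k) * (1 - z • T)) atTop
      (𝓝 (resS T z * (1 - z • T))) := by
    refine Tendsto.mul_const _ ?_
    have := (hasSum_resS hs hz).tendsto_sum_nat
    refine this.congr fun K => Finset.sum_congr rfl fun k _ => ?_
    rw [smul_pow]
  have h2 : Tendsto (fun K : ℕ => (∑ k ∈ Finset.range K, (z • T) ^ k) * (1 - z • T)) atTop
      (𝓝 (1 - 0)) := by
    refine (tendsto_const_nhds.sub (tendsto_pow_smul hs hz)).congr fun K => ?_
    rw [geom_sum_mul_neg]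
  rw [sub_zero] at h2
  exact tendsto_nhds_unique h1 h2

lemma continuousOn_resS : ContinuousOn (resS T) (closedBall 0 1) := by
  refine continuousOn_pi.2 fun a => continuousOn_pi.2 fun b => ?_
  refine continuousOn_tsum (fun k => by fun_prop) hs fun k z hz => ?_
  have hz' : ‖z‖ ≤ 1 := by simpa using hz
  rw [norm_mul, norm_pow]
  calc ‖z‖ ^ k * ‖(T ^ k) a b‖ ≤ 1 * ‖(T ^ k) a b‖ := by
        gcongr
        exact pow_le_one₀ (norm_nonneg _) hz'
    _ ≤ powB T k := by rw [one_mul]; exact entry_le_powB T k a b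

end

/-- The Poisson kernel at the point `ω` of the unit circle. -/
noncomputable def poissonK (T : Matrix (Fin n) (Fin n) ℂ) (ω : ℂ) : Matrix (Fin n) (Fin n) ℂ :=
  resS T (conj ω) + (resS T (conj ω))ᴴ - 1

section
variable {T : Matrix (Fin n) (Fin n) ℂ} (hs : Summable (powB T))
include hs

lemma poissonK_posSemidef (hc : (1 - Tᴴ * T).PosSemidef) {ω : ℂ} (hω : ‖ω‖ = 1) :
    (poissonK T ω).PosSemidef := by
  have hz : ‖conj ω‖ ≤ 1 := by simp [hω]
  set X := resS T (conj ω) with hX
  set M : Matrix (Fin n) (Fin n) ℂ := 1 - conj ω • T with hM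
  have h1 : M * X = 1 := one_sub_mul_resS hs hz
  have h2 : Xᴴ * Mᴴ = 1 := by
    rw [← Matrix.conjTranspose_mul, h1, Matrix.conjTranspose_one]
  have hωω : ω * conj ω = 1 := by
    rw [Complex.mul_conj, Complex.normSq_eq_norm_sq, hω]
    simp
  have h3 : (1 : Matrix (Fin n) (Fin n) ℂ) - Tᴴ * T = M + Mᴴ - Mᴴ * M := by
    have hMH : Mᴴ = 1 - ω • Tᴴ := by
      simp [hM, Matrix.conjTranspose_sub, Matrix.conjTranspose_smul]
    have e2 : (ω • Tᴴ) * (conj ω • T) = Tᴴ * T := by
      rw [smul_mul_smul_comm, hωω, one_smul]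
    have e3 : ∀ x y : Matrix (Fin n) (Fin n) ℂ, (1 - x) * (1 - y) = 1 - y - x + x * y := by
      intro x y
      simp only [sub_mul, mul_sub, one_mul, mul_one]
      abel
    rw [hMH, hM, e3, e2]
    abel
  have h4 : poissonK T ω = Xᴴ * (1 - Tᴴ * T) * X := by
    rw [h3]
    unfold poissonK
    rw [← hX]
    have e1 : Xᴴ * (M + Mᴴ - Mᴴ * M) * X = Xᴴ * (M * X) + (Xᴴ * Mᴴ) * X - (Xᴴ * Mᴴ) * (M * X) := by
      simp only [mul_sub, sub_mul, mul_add, add_mul, Matrix.mul_assoc]
    rw [e1, h1, h2]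
    simp only [mul_one, one_mul]
    abel
  rw [h4]
  exact hc.conjTranspose_mul_mul_same X

lemma continuous_poissonK_comp {ω : ℝ → ℂ} (hω : Continuous ω) (hω1 : ∀ θ, ‖ω θ‖ = 1) :
    Continuous fun θ => poissonK T (ω θ) := by
  have hconj : Continuous fun θ => conj (ω θ) := Complex.continuous_conj.comp hω
  have h1 : Continuous fun θ => resS T (conj (ω θ)) :=
    (continuousOn_resS hs).comp_continuous hconj fun θ => by simp [hω1 θ]
  unfold poissonK
  have h2 : Continuous fun θ => (resS T (conj (ω θ)))ᴴ := h1.matrix_conjTranspose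
  exact (h1.add h2).sub continuous_const

lemma continuousOn_poissonK_apply (a b : Fin n) :
    ContinuousOn (fun z => poissonK T z a b) (sphere 0 1) := by
  have hconj : ContinuousOn (fun z : ℂ => conj z) (sphere 0 1) :=
    Complex.continuous_conj.continuousOn
  have h1 : ContinuousOn (fun z : ℂ => resS T (conj z)) (sphere 0 1) :=
    (continuousOn_resS hs).comp hconj fun z hz => by
      have : ‖z‖ = 1 := by simpa using hz
      simp [this]
  have h2 : ContinuousOn (fun z : ℂ => poissonK T z) (sphere 0 1) := by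
    unfold poissonK
    have h3 : ContinuousOn (fun z : ℂ => (resS T (conj z))ᴴ) (sphere 0 1) :=
      continuous_id.matrix_conjTranspose.comp_continuousOn h1
    exact (h1.add h3).sub continuousOn_const
  have h4 : Continuous fun M : Matrix (Fin n) (Fin n) ℂ => M a b :=
    (continuous_apply b).comp (continuous_apply a)
  exact h4.comp_continuousOn h2

/-- Entry of the Poisson kernel as two series. -/
lemma poissonK_hasSum {ω : ℂ} (hω : ‖ω‖ = 1) (a b : Fin n) :
    HasSum (fun k : ℕ => conj ω ^ k * (T ^ k) a b + ω ^ k * conj ((T ^ k) b a))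
      (poissonK T ω a b + (1 : Matrix (Fin n) (Fin n) ℂ) a b) := by
  have hz : ‖conj ω‖ ≤ 1 := by simp [hω]
  have h1 := (summable_entry hs hz a b).hasSum
  have h2 : HasSum (fun k : ℕ => ω ^ k * conj ((T ^ k) b a)) (conj (resS T (conj ω) b a)) := by
    have h3 := ((summable_entry hs hz b a).hasSum).map (starRingEnd ℂ) Complex.continuous_conj
    have h4 : (⇑(starRingEnd ℂ) ∘ fun k : ℕ => conj ω ^ k * (T ^ k) b a)
        = fun k : ℕ => ω ^ k * conj ((T ^ k) b a) := by
      funext k
      simp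
    rw [h4] at h3
    exact h3
  have h5 := h1.add h2
  have h6 : poissonK T ω a b + (1 : Matrix (Fin n) (Fin n) ℂ) a b
      = ∑' k : ℕ, conj ω ^ k * (T ^ k) a b + conj (resS T (conj ω) b a) := by
    unfold poissonK
    simp only [Matrix.add_apply, Matrix.sub_apply, Matrix.conjTranspose_apply]
    have : (resS T (conj ω)) a b = ∑' k : ℕ, conj ω ^ k * (T ^ k) a b := rfl
    rw [this]
    simp
  rw [h6]
  exact h5

/-- A bound for the entries of the kernel on the circle. -/
lemma exists_bound_poissonK (a b : Fin n) :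
    ∃ C : ℝ, ∀ φ : ℝ, ‖poissonK T (eI φ) a b‖ ≤ C := by
  have hc : Continuous fun φ : ℝ => poissonK T (eI φ) a b := by
    have := continuous_poissonK_comp hs continuous_eI norm_eI
    exact (continuous_apply b).comp ((continuous_apply a).comp this)
  have hper : Function.Periodic (fun φ : ℝ => poissonK T (eI φ) a b) (2 * π) := by
    intro φ
    have : eI (φ + 2 * π) = eI φ := by
      unfold eI
      push_cast
      rw [add_mul, Complex.exp_add, Complex.exp_two_pi_mul_I, mul_one]
    simp [this]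
  obtain ⟨C, hC⟩ := (isCompact_Icc (a := (0 : ℝ)) (b := 2 * π)).exists_bound_of_continuousOn
    hc.continuousOn
  refine ⟨C, fun φ => ?_⟩
  obtain ⟨y, hy, hy2⟩ := hper.exists_mem_Ico₀ (by positivity) φ
  rw [hy2]
  exact hC y ⟨hy.1, hy.2.le⟩

/-- The moments of the Poisson kernel. -/
lemma integral_poissonK_mul_pow (a b : Fin n) (m : ℕ) :
    ∫ φ in (0 : ℝ)..2 * π, poissonK T (eI φ) a b * (eI φ) ^ m = (2 * π : ℂ) * (T ^ m) a b := by
  have hcont : Continuous fun φ : ℝ => poissonK T (eI φ) a b := by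
    have := continuous_poissonK_comp hs continuous_eI norm_eI
    exact (continuous_apply b).comp ((continuous_apply a).comp this)
  -- the summand
  let F : ℕ → ℝ → ℂ := fun k φ =>
    (conj (eI φ) ^ k * (T ^ k) a b + eI φ ^ k * conj ((T ^ k) b a)) * (eI φ) ^ m
  have hF : ∀ φ : ℝ, HasSum (fun k => F k φ)
      ((poissonK T (eI φ) a b + (1 : Matrix (Fin n) (Fin n) ℂ) a b) * (eI φ) ^ m) := fun φ =>
    (poissonK_hasSum hs (norm_eI φ) a b).mul_right _
  have hFc : ∀ k, Continuous (F k) := by
    intro k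
    have := continuous_eI
    simp only [F]
    fun_prop
  have hbound : ∀ k φ, ‖F k φ‖ ≤ 2 * powB T k := by
    intro k φ
    simp only [F, norm_mul, norm_pow, norm_eI, one_pow, mul_one]
    refine (norm_add_le _ _).trans ?_
    simp only [norm_mul, norm_pow, RCLike.norm_conj, norm_eI, one_pow, one_mul]
    have h1 := entry_le_powB T k a b
    have h2 := entry_le_powB T k b a
    linarith
  have hsum : HasSum (fun k => ∫ φ in (0 : ℝ)..2 * π, F k φ)
      (∫ φ in (0 : ℝ)..2 * π,
        (poissonK T (eI φ) a b + (1 : Matrix (Fin n) (Fin n) ℂ) a b) * (eI φ) ^ m) := by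
    refine intervalIntegral.hasSum_integral_of_dominated_convergence
      (fun k _ => 2 * powB T k) (fun k => (hFc k).aestronglyMeasurable)
      (fun k => Filter.Eventually.of_forall fun φ _ => hbound k φ)
      (Filter.Eventually.of_forall fun φ _ => hs.mul_left 2) ?_
      (Filter.Eventually.of_forall fun φ _ => hF φ)
    exact intervalIntegrable_const
  -- compute each term
  have hterm : ∀ k, ∫ φ in (0 : ℝ)..2 * π, F k φ =
      (if k = m then (2 * π : ℂ) else 0) * (T ^ k) a b +
        (if k = 0 ∧ m = 0 then (2 * π : ℂ) else 0) * conj ((T ^ k) b a) := by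
    intro k
    have hce : Continuous eI := continuous_eI
    have h1 : (fun φ : ℝ => F k φ) = fun φ : ℝ =>
        ((conj (eI φ)) ^ k * (eI φ) ^ m) * (T ^ k) a b +
          ((eI φ) ^ k * (eI φ) ^ m) * conj ((T ^ k) b a) := by
      funext φ
      simp only [F]
      ring
    rw [h1, intervalIntegral.integral_add, intervalIntegral.integral_mul_const,
      intervalIntegral.integral_mul_const, integral_conj_pow_mul_pow, integral_pow_mul_pow]
    · apply Continuous.intervalIntegrable
      fun_prop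
    · apply Continuous.intervalIntegrable
      fun_prop
  have hlhs : ∫ φ in (0 : ℝ)..2 * π,
      (poissonK T (eI φ) a b + (1 : Matrix (Fin n) (Fin n) ℂ) a b) * (eI φ) ^ m =
      (∫ φ in (0 : ℝ)..2 * π, poissonK T (eI φ) a b * (eI φ) ^ m) +
        (1 : Matrix (Fin n) (Fin n) ℂ) a b * (if m = 0 then (2 * π : ℂ) else 0) := by
    have hce : Continuous eI := continuous_eI
    have h1 : (fun φ : ℝ => (poissonK T (eI φ) a b + (1 : Matrix (Fin n) (Fin n) ℂ) a b) *
          (eI φ) ^ m) = fun φ : ℝ => poissonK T (eI φ) a b * (eI φ) ^ m +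
        (1 : Matrix (Fin n) (Fin n) ℂ) a b * ((conj (eI φ)) ^ 0 * (eI φ) ^ m) := by
      funext φ
      ring
    rw [h1, intervalIntegral.integral_add, intervalIntegral.integral_const_mul,
      integral_conj_pow_mul_pow]
    · simp [eq_comm]
    · apply Continuous.intervalIntegrable
      exact hcont.mul (by fun_prop)
    · apply Continuous.intervalIntegrable
      fun_prop
  -- the sum has one or two nonzero terms
  have hval : HasSum (fun k => ∫ φ in (0 : ℝ)..2 * π, F k φ)
      ((2 * π : ℂ) * (T ^ m) a b +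
        (if m = 0 then (2 * π : ℂ) * conj ((T ^ 0) b a) else 0)) := by
    simp only [hterm]
    refine HasSum.add ?_ ?_
    · have := hasSum_ite_eq m ((2 * π : ℂ) * (T ^ m) a b)
      refine this.congr_fun ?_ |> fun h => h
      intro k
      by_cases h : k = m
      · subst h; simp
      · simp [h]
    · by_cases hm : m = 0
      · subst hm
        have := hasSum_ite_eq 0 ((2 * π : ℂ) * conj ((T ^ 0) b a))
        simp only [if_true]
        refine this.congr_fun ?_ |> fun h => h
        intro k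
        by_cases h : k = 0
        · subst h; simp
        · simp [h]
      · simp only [hm, if_false, and_false, zero_mul]
        exact hasSum_zero
  have huniq := hsum.unique hval
  rw [hlhs] at huniq
  have hone : conj ((T ^ 0) b a) = (1 : Matrix (Fin n) (Fin n) ℂ) a b := by
    simp only [pow_zero, Matrix.one_apply]
    by_cases h : a = b
    · subst h; simp
    · have h' : ¬ b = a := fun e => h e.symm
      simp [h, h']
  by_cases hm : m = 0
  · subst hm
    simp only [if_true] at huniq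
    rw [hone] at huniq
    have : (∫ φ in (0 : ℝ)..2 * π, poissonK T (eI φ) a b * (eI φ) ^ 0)
        = (2 * π : ℂ) * (T ^ 0) a b := by
      linear_combination huniq
    exact this
  · simp only [hm, if_false, mul_zero, add_zero] at huniq
    exact huniq

/-- Poisson integral formula. -/
lemma hasSum_mul_pow_of_integral {t : ℕ → ℂ} (ht : Summable fun k => ‖t k‖) {W : ℝ → ℂ}
    (hW : ∀ φ, HasSum (fun k => t k * (eI φ) ^ k) (W φ)) (a b : Fin n) :
    HasSum (fun k => t k * (T ^ k) a b)
      ((2 * π : ℂ)⁻¹ * ∫ φ in (0 : ℝ)..2 * π, poissonK T (eI φ) a b * W φ) := by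
  have hcont : Continuous fun φ : ℝ => poissonK T (eI φ) a b := by
    have := continuous_poissonK_comp hs continuous_eI norm_eI
    exact (continuous_apply b).comp ((continuous_apply a).comp this)
  obtain ⟨C, hC⟩ := exists_bound_poissonK hs a b
  let F : ℕ → ℝ → ℂ := fun k φ => poissonK T (eI φ) a b * (t k * (eI φ) ^ k)
  have hFc : ∀ k, Continuous (F k) := by
    intro k
    have := continuous_eI
    simp only [F]
    exact hcont.mul (by fun_prop)
  have hbound : ∀ k φ, ‖F k φ‖ ≤ C * ‖t k‖ := by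
    intro k φ
    simp only [F, norm_mul, norm_pow, norm_eI, one_pow, mul_one]
    exact mul_le_mul_of_nonneg_right (hC φ) (norm_nonneg _)
  have hsum : HasSum (fun k => ∫ φ in (0 : ℝ)..2 * π, F k φ)
      (∫ φ in (0 : ℝ)..2 * π, poissonK T (eI φ) a b * W φ) := by
    refine intervalIntegral.hasSum_integral_of_dominated_convergence
      (fun k _ => C * ‖t k‖) (fun k => (hFc k).aestronglyMeasurable)
      (fun k => Filter.Eventually.of_forall fun φ _ => hbound k φ)
      (Filter.Eventually.of_forall fun φ _ => ht.mul_left C) ?_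
      (Filter.Eventually.of_forall fun φ _ => (hW φ).mul_left _)
    exact intervalIntegrable_const
  have hterm : ∀ k, ∫ φ in (0 : ℝ)..2 * π, F k φ = t k * ((2 * π : ℂ) * (T ^ k) a b) := by
    intro k
    have h1 : (fun φ : ℝ => F k φ) = fun φ : ℝ => t k * (poissonK T (eI φ) a b * (eI φ) ^ k) := by
      funext φ
      simp only [F]
      ring
    rw [h1, intervalIntegral.integral_const_mul, integral_poissonK_mul_pow hs]
  simp only [hterm] at hsum
  have h2 := hsum.mul_left ((2 * π : ℂ)⁻¹)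
  refine h2.congr_fun ?_ |> fun h => h
  intro k
  have h3 : (2 * π : ℂ) ≠ 0 := by
    simp [Real.pi_ne_zero]
  field_simp

end

end Crest.Agent.CrouzeixPoisson
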